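import Vale.Agent.P042.Quad.Defs
import Vale.Agent.P042.Odd.Major

/-!
The terms of the test polynomial on the major arcs.
-/

open Finset

namespace Vale.Agent.P042.Quad

lemma Good.castB {B E C : ℤ} (hg : Good B E C) : (1 : ℝ) ≤ B := by exact_mod_cast hg.posB

lemma Good.castE {B E C : ℤ} (hg : Good B E C) : (1 : ℝ) ≤ E := by exact_mod_cast hg.posE

lemma Good.castC {B E C : ℤ} (hg : Good B E C) : (1 : ℝ) ≤ C := by exact_mod_cast hg.posC

lemma hasDerivAt_quadR (B E C : ℤ) (x : ℝ) :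
    HasDerivAt (quadR B E C) (2 * B * x + E) x := by
  have h := (((hasDerivAt_pow 2 x).const_mul (B : ℝ)).add
    ((hasDerivAt_id x).const_mul (E : ℝ))).add_const (C : ℝ)
  refine h.congr_deriv ?_
  push_cast
  ring

@[fun_prop]
lemma continuous_quadR (B E C : ℤ) : Continuous (quadR B E C) := by
  unfold quadR; fun_prop

@[fun_prop]
lemma continuous_wQ (B E C : ℤ) (M : ℕ) : Continuous (wQ B E C M) := by
  unfold wQ; fun_prop

lemma wQ_self (B E C : ℤ) (M : ℕ) : wQ B E C M M = 0 := by simp [wQ]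

/-- Bounds for the two factors of the weight. -/
lemma factor_bounds {B E C : ℤ} (hg : Good B E C) {M : ℕ} (hM : 1 ≤ M) {x : ℝ} (hx : 0 ≤ x)
    (hxM : x ≤ M) :
    0 ≤ 2 * (B : ℝ) * x + E ∧ 2 * (B : ℝ) * x + E ≤ (2 * B + E) * M ∧
    0 ≤ quadR B E C M - quadR B E C x ∧
    quadR B E C M - quadR B E C x ≤ (B + E) * (M : ℝ) ^ 2 := by
  have hB := hg.castB
  have hE := hg.castE
  have hM1 : (1 : ℝ) ≤ M := by exact_mod_cast hM
  have h2 : x ^ 2 ≤ (M : ℝ) ^ 2 := pow_le_pow_left₀ hx hxM 2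
  have h3 : (M : ℝ) ≤ (M : ℝ) ^ 2 := by nlinarith
  refine ⟨by positivity, by nlinarith, ?_, ?_⟩ <;>
    simp only [quadR] <;> nlinarith [mul_nonneg hx hx]

/-- A bound for the weight. -/
lemma abs_wQ_le {B E C : ℤ} (hg : Good B E C) {M : ℕ} (hM : 1 ≤ M) {x : ℝ} (hx : 0 ≤ x)
    (hxM : x ≤ M) :
    |wQ B E C M x| ≤ (2 * B + E) * (B + E) * (M : ℝ) ^ 3 := by
  obtain ⟨h0, h1, h2, h3⟩ := factor_bounds hg hM hx hxM
  rw [wQ, abs_mul, abs_of_nonneg h0, abs_of_nonneg h2]
  refine (mul_le_mul h1 h3 h2 (h0.trans h1)).trans (le_of_eq ?_)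
  ring

/-- The integral of the weight against a function bounded by `D`. -/
lemma abs_integral_wQ_le {B E C : ℤ} (hg : Good B E C) {M : ℕ} (hM : 1 ≤ M) (T : ℝ → ℝ) (D : ℝ)
    (hT : ∀ x, |T x| ≤ D) :
    |∫ x in (0 : ℝ)..M, wQ B E C M x * T x| ≤ D * ((2 * B + E) * (B + E)) * (M : ℝ) ^ 4 := by
  rw [← Real.norm_eq_abs]
  refine (intervalIntegral.norm_integral_le_of_norm_le_const
    (C := (2 * B + E) * (B + E) * (M : ℝ) ^ 3 * D) fun x hx => ?_).trans (le_of_eq ?_)
  · rw [Set.uIoc_of_le (Nat.cast_nonneg M)] at hx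
    rw [Real.norm_eq_abs, abs_mul]
    have h := abs_wQ_le hg hM hx.1.le hx.2
    exact mul_le_mul h (hT x) (abs_nonneg _) ((abs_nonneg _).trans h)
  · rw [sub_zero, Nat.abs_cast]; ring

/-- Fejér: with the phase shifted to vanish at the origin the integral is nonnegative. -/
lemma shifted_nonneg (B E C : ℤ) (M : ℕ) {b : ℝ} (hb : b ≠ 0) :
    0 ≤ ∫ x in (0 : ℝ)..M, wQ B E C M x * Real.cos (b * (quadR B E C x - C)) := by
  have hd : ∀ x ∈ Set.uIcc (0 : ℝ) M, HasDerivAt
      (fun x : ℝ => (quadR B E C M - quadR B E C x) * Real.sin (b * (quadR B E C x - C)) / b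
        - Real.cos (b * (quadR B E C x - C)) / b ^ 2)
      (wQ B E C M x * Real.cos (b * (quadR B E C x - C))) x := by
    intro x _
    have hf := hasDerivAt_quadR B E C x
    have harg := (hf.sub_const (C : ℝ)).const_mul b
    have h := ((((hasDerivAt_const x (quadR B E C M)).sub hf).mul harg.sin).div_const b).sub
      (harg.cos.div_const (b ^ 2))
    refine h.congr_deriv ?_
    simp only [wQ, Pi.sub_apply]
    field_simp
    ring
  rw [intervalIntegral.integral_eq_sub_of_hasDerivAt hd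
    ((by fun_prop : Continuous fun x : ℝ =>
      wQ B E C M x * Real.cos (b * (quadR B E C x - C))).intervalIntegrable _ _)]
  have h0 : quadR B E C 0 = C := by simp [quadR]
  simp only [h0, sub_self, mul_zero, zero_mul, zero_div, Real.sin_zero, Real.cos_zero, zero_sub,
    sub_neg_eq_add]
  rw [neg_add_eq_sub, sub_nonneg, div_le_div_iff_of_pos_right (by positivity)]
  exact Real.cos_le_one _

theorem Jc_zero {B E C : ℤ} (hg : Good B E C) (M : ℕ) :
    (M : ℝ) ^ 4 / 2 ≤ Jc B E C M 0 := by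
  have hd : ∀ x ∈ Set.uIcc (0 : ℝ) M, HasDerivAt
      (fun x : ℝ => -(quadR B E C M - quadR B E C x) ^ 2 / 2) (wQ B E C M x) x := by
    intro x _
    have h := ((((hasDerivAt_const x (quadR B E C M)).sub
      (hasDerivAt_quadR B E C x)).pow 2).neg).div_const 2
    refine h.congr_deriv ?_
    simp only [wQ, Pi.sub_apply]
    push_cast
    ring
  simp only [Jc, mul_zero, zero_mul, Real.cos_zero, mul_one]
  rw [intervalIntegral.integral_eq_sub_of_hasDerivAt hd
    ((continuous_wQ B E C M).intervalIntegrable _ _)]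
  have h1 : (M : ℝ) ^ 2 ≤ quadR B E C M - quadR B E C 0 := by
    have := hg.castB
    have := hg.castE
    have : (0 : ℝ) ≤ M := Nat.cast_nonneg M
    simp only [quadR]
    nlinarith
  have h2 := pow_le_pow_left₀ (by positivity) h1 2
  rw [sub_self]
  nlinarith

theorem Jc_lower {B E C : ℤ} (hg : Good B E C) : ∃ K : ℝ, 0 ≤ K ∧ ∀ (M : ℕ) (β : ℝ), 1 ≤ M →
    -(K * |β| * (M : ℝ) ^ 4) ≤ Jc B E C M β := by
  have hB := hg.castB
  have hE := hg.castE
  have hC := hg.castC
  refine ⟨2 * Real.pi * C * ((2 * B + E) * (B + E)), by positivity, fun M β hM => ?_⟩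
  rcases eq_or_ne β 0 with rfl | hβ
  · rw [abs_zero, mul_zero, zero_mul, neg_zero]
    exact le_trans (by positivity) (Jc_zero hg M)
  set b := 2 * Real.pi * β
  have hb : b ≠ 0 := by positivity
  set T : ℝ → ℝ := fun x =>
    Real.cos (b * quadR B E C x) - Real.cos (b * (quadR B E C x - C)) with hTdef
  have hT : ∀ x, |T x| ≤ |b| * C := fun x => by
    have h := Real.abs_cos_sub_cos_le (b * quadR B E C x) (b * (quadR B E C x - C))
    refine h.trans (le_of_eq ?_)
    rw [← mul_sub, sub_sub_cancel, abs_mul, abs_of_nonneg (by linarith : (0 : ℝ) ≤ C)]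
  have h := (abs_le.1 (abs_integral_wQ_le hg hM T _ hT)).1
  have h0 := shifted_nonneg B E C M hb
  have e : Jc B E C M β = (∫ x in (0 : ℝ)..M, wQ B E C M x * T x) +
      ∫ x in (0 : ℝ)..M, wQ B E C M x * Real.cos (b * (quadR B E C x - C)) := by
    rw [← intervalIntegral.integral_add
      ((by simp only [hTdef]; fun_prop : Continuous fun x => wQ B E C M x * T x).intervalIntegrable
        _ _)
      ((by fun_prop : Continuous fun x : ℝ =>
        wQ B E C M x * Real.cos (b * (quadR B E C x - C))).intervalIntegrable _ _)]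
    simp only [Jc, hTdef, b]
    refine intervalIntegral.integral_congr fun x _ => ?_
    ring
  have e2 : |b| = 2 * Real.pi * |β| := by
    simp only [b, abs_mul, abs_two, abs_of_pos Real.pi_pos]
  rw [e2] at h
  rw [e]
  nlinarith

theorem Jc_Js_upper {B E C : ℤ} (hg : Good B E C) : ∃ K : ℝ, 0 ≤ K ∧ ∀ (M : ℕ) (β : ℝ), 1 ≤ M →
    |Jc B E C M β| ≤ K * (M : ℝ) ^ 4 ∧ |Js B E C M β| ≤ K * (M : ℝ) ^ 4 := by
  have hB := hg.castB
  have hE := hg.castE
  refine ⟨1 * ((2 * B + E) * (B + E)), by positivity, fun M β hM => ⟨?_, ?_⟩⟩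
  · exact abs_integral_wQ_le hg hM _ 1 fun x => Real.abs_cos_le_one _
  · exact abs_integral_wQ_le hg hM _ 1 fun x => Real.abs_sin_le_one _

/-- The constant in the Lipschitz bound. -/
noncomputable def lipK (B E : ℤ) : ℝ := 9 * (2 * B + E) ^ 2 * (B + E)

/-- The weight times a trigonometric function of the phase is Lipschitz. -/
lemma wQ_mul_lip {B E C : ℤ} (hg : Good B E C) {M : ℕ} (hM : 1 ≤ M) (β : ℝ) (T T' : ℝ → ℝ)
    (hT : ∀ y, HasDerivAt T (T' y) y) (hT1 : ∀ y, |T y| ≤ 1) (hT'1 : ∀ y, |T' y| ≤ 1) :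
    ∀ x ∈ Set.Icc (0 : ℝ) M, ∀ y ∈ Set.Icc (0 : ℝ) M,
      |wQ B E C M x * T (2 * Real.pi * β * quadR B E C x) -
          wQ B E C M y * T (2 * Real.pi * β * quadR B E C y)| ≤
        lipK B E * (1 + |β| * (M : ℝ) ^ 2) * (M : ℝ) ^ 2 * |x - y| := by
  intro x hx y hy
  set b := 2 * Real.pi * β
  have hd : ∀ t ∈ Set.Icc (0 : ℝ) M, HasDerivWithinAt
      (fun t => wQ B E C M t * T (b * quadR B E C t))
      ((2 * B * (quadR B E C M - quadR B E C t) - (2 * B * t + E) ^ 2) * T (b * quadR B E C t) +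
        wQ B E C M t * (T' (b * quadR B E C t) * (b * (2 * B * t + E))))
      (Set.Icc 0 M) t := by
    intro t _
    have h1 : HasDerivAt (wQ B E C M)
        (2 * B * (quadR B E C M - quadR B E C t) - (2 * B * t + E) ^ 2) t := by
      have h := (((hasDerivAt_id t).const_mul (2 * (B : ℝ))).add_const (E : ℝ)).mul
        ((hasDerivAt_const t (quadR B E C M)).sub (hasDerivAt_quadR B E C t))
      refine h.congr_deriv ?_
      simp only [Pi.sub_apply, id_eq]
      ring
    have h2 := (hT (b * quadR B E C t)).comp t ((hasDerivAt_quadR B E C t).const_mul b)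
    exact (h1.mul h2).hasDerivWithinAt
  have hbound : ∀ t ∈ Set.Icc (0 : ℝ) M,
      ‖(2 * B * (quadR B E C M - quadR B E C t) - (2 * B * t + E) ^ 2) *
          T (b * quadR B E C t) +
        wQ B E C M t * (T' (b * quadR B E C t) * (b * (2 * B * t + E)))‖ ≤
        lipK B E * (1 + |β| * (M : ℝ) ^ 2) * (M : ℝ) ^ 2 := by
    intro t ht
    obtain ⟨p0, p1, r0, r1⟩ := factor_bounds hg hM ht.1 ht.2
    have hB := hg.castB
    have hE := hg.castE
    set P := 2 * (B : ℝ) + E with hP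
    set R := (B : ℝ) + E with hR
    have hP1 : 1 ≤ P := by linarith
    have hR1 : 1 ≤ R := by linarith
    have hA : |2 * B * (quadR B E C M - quadR B E C t) - (2 * B * t + E) ^ 2| ≤
        2 * (P ^ 2 * R) * (M : ℝ) ^ 2 := by
      have h1 := pow_le_pow_left₀ p0 p1 2
      have h2 : 2 * (B : ℝ) * (quadR B E C M - quadR B E C t) ≤ P * (R * (M : ℝ) ^ 2) :=
        mul_le_mul (by linarith) r1 r0 (by linarith)
      have h3 : P * (R * (M : ℝ) ^ 2) ≤ P ^ 2 * R * (M : ℝ) ^ 2 := by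
        rw [sq P, mul_assoc, mul_assoc]
        exact le_mul_of_one_le_left (by positivity) hP1
      have h4 : (P * M) ^ 2 ≤ P ^ 2 * R * (M : ℝ) ^ 2 := by
        rw [mul_pow, mul_right_comm]
        exact le_mul_of_one_le_right (by positivity) hR1
      have h5 : 0 ≤ 2 * (B : ℝ) * (quadR B E C M - quadR B E C t) :=
        mul_nonneg (by linarith) r0
      have h6 := sq_nonneg (2 * (B : ℝ) * t + E)
      rw [abs_le]
      constructor <;> linarith
    have hW := abs_wQ_le (C := C) hg hM ht.1 ht.2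
    have hF : |b * (2 * B * t + E)| ≤ 8 * |β| * (P * M) := by
      rw [abs_mul, abs_of_nonneg p0]
      refine mul_le_mul ?_ p1 p0 (by positivity)
      simp only [b, abs_mul, abs_two, abs_of_pos Real.pi_pos]
      nlinarith [Real.pi_lt_four, abs_nonneg β]
    rw [Real.norm_eq_abs]
    refine (abs_add_le _ _).trans ?_
    rw [abs_mul _ (T _), abs_mul (wQ _ _ _ _ _), abs_mul (T' _)]
    have e1 := mul_le_mul hA (hT1 (b * quadR B E C t)) (abs_nonneg _) (by positivity)
    have e2 := mul_le_mul hW (mul_le_mul (hT'1 (b * quadR B E C t)) hF (abs_nonneg _) zero_le_one)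
      (by positivity) (by positivity)
    refine (add_le_add e1 e2).trans ?_
    have h7 : 0 ≤ P ^ 2 * R * (M : ℝ) ^ 2 := by positivity
    have h8 : 0 ≤ P ^ 2 * R * (|β| * (M : ℝ) ^ 2) * (M : ℝ) ^ 2 := by positivity
    have e3 : lipK B E = 9 * P ^ 2 * R := rfl
    rw [e3]
    nlinarith
  have := Convex.norm_image_sub_le_of_norm_hasDerivWithin_le hd hbound (convex_Icc 0 _) hy hx
  rw [Real.norm_eq_abs, Real.norm_eq_abs] at this
  exact this

/-- A sum against a periodic factor is the mean times the integral. -/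
lemma periodic_mean (f : ℕ → ℝ) (P : ℕ) (hP : 0 < P) (hper : ∀ n, f (n + P) = f n) (D : ℝ)
    (hD : ∀ n, |f n| ≤ D) (μ : ℝ) (hμ : ∑ n ∈ range P, f n = P * μ)
    (φ : ℝ → ℝ) (hφ : Continuous φ) (M : ℕ) (hφM : φ M = 0) (Λ : ℝ) (hΛ : 0 ≤ Λ)
    (hlip : ∀ x ∈ Set.Icc (0 : ℝ) M, ∀ y ∈ Set.Icc (0 : ℝ) M, |φ x - φ y| ≤ Λ * |x - y|) :
    |∑ n ∈ range M, f n * φ n - μ * ∫ x in (0 : ℝ)..M, φ x| ≤ 3 * D * P * (M * Λ) := by
  have hP1 : (1 : ℝ) ≤ P := by exact_mod_cast hP
  have hD0 : 0 ≤ D := (abs_nonneg _).trans (hD 0)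
  have hμD : |μ| ≤ D := by
    have h := (abs_sum_le_sum_abs f (range P)).trans (sum_le_sum fun n _ => hD n)
    rw [hμ, sum_const, card_range, nsmul_eq_mul, abs_mul, Nat.abs_cast] at h
    exact le_of_mul_le_mul_left h (by linarith)
  have h1 := Odd.abs_sum_periodic_le f P hP hper D hD μ hμ (fun n => φ n) Λ M
    (fun n hn => by
      have hn' : (n : ℝ) + 1 ≤ M := by exact_mod_cast hn
      have h0 : (0 : ℝ) ≤ n := Nat.cast_nonneg n
      refine (hlip _ ⟨Nat.cast_nonneg _, by push_cast; linarith⟩ _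
        ⟨h0, by linarith⟩).trans ?_
      simp) hφM
  have h2 := Odd.abs_sum_sub_integral_le φ hφ M Λ hΛ hlip
  have e : ∑ n ∈ range M, f n * φ n - μ * ∫ x in (0 : ℝ)..M, φ x =
      ∑ n ∈ range M, (f n - μ) * φ n + μ * (∑ n ∈ range M, φ n - ∫ x in (0 : ℝ)..M, φ x) := by
    simp only [sub_mul, sum_sub_distrib, ← mul_sum]; ring
  rw [e]
  refine (abs_add_le _ _).trans ?_
  rw [abs_mul μ]
  have hX : 0 ≤ (M : ℝ) * Λ := by positivity
  have h3 := mul_le_mul hμD h2 (abs_nonneg _) hD0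
  have h4 : (D + |μ|) * P * (M * Λ) ≤ 2 * D * P * (M * Λ) :=
    mul_le_mul_of_nonneg_right (mul_le_mul_of_nonneg_right (by linarith) (by linarith)) hX
  have h5 : D * (M * Λ) ≤ D * P * (M * Λ) :=
    mul_le_mul_of_nonneg_right (le_mul_of_one_le_right hD0 hP1) hX
  linarith

theorem term_major {B E C : ℤ} (hg : Good B E C) : ∃ K : ℝ, 0 ≤ K ∧
    ∀ (M d q : ℕ), 1 ≤ M → 1 ≤ d → 1 ≤ q → ∀ (a : ℤ) (β θ : ℝ), θ = (a : ℝ) / q + β →
      |term B E C M d θ -
          ((avg B E C q d a).re * Jc B E C M β - (avg B E C q d a).im * Js B E C M β)| ≤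
        K * (d : ℝ) ^ 3 * q * (1 + |β| * (M : ℝ) ^ 2) * (M : ℝ) ^ 3 := by
  have hB := hg.castB
  have hE := hg.castE
  have hK : 0 ≤ lipK B E := by unfold lipK; positivity
  refine ⟨6 * lipK B E, by positivity, fun M d q hM hd hq a β θ hθ => ?_⟩
  have : NeZero q := ⟨by omega⟩
  set b := 2 * Real.pi * β
  set φc : ℝ → ℝ := fun x => wQ B E C M x * Real.cos (b * quadR B E C x)
  set φs : ℝ → ℝ := fun x => wQ B E C M x * Real.sin (b * quadR B E C x)
  set fc : ℕ → ℝ := fun n => uF B E d n * (phase B E C q a n).re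
  set fs : ℕ → ℝ := fun n => uF B E d n * (phase B E C q a n).im
  set Λ := lipK B E * (1 + |β| * (M : ℝ) ^ 2) * (M : ℝ) ^ 2
  have hsplit : term B E C M d θ = ∑ n ∈ range M, fc n * φc n - ∑ n ∈ range M, fs n * φs n := by
    rw [term, ← sum_sub_distrib]
    refine sum_congr rfl fun n _ => ?_
    simp only [fc, fs, φc, φs, phase, ee_re, ee_im]
    have e : 2 * Real.pi * θ * quadR B E C n =
        2 * Real.pi * (((a * quad B E C (n : ℤ) : ℤ) : ℝ) / q) + b * quadR B E C n := by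
      rw [hθ]
      simp only [quad, quadR, b]
      push_cast
      ring
    rw [e, Real.cos_add]
    ring
  have hper : Function.Periodic (phase B E C q a) (d * q) := by
    simpa using (phase_periodic B E C q a).nat_mul d
  have hperu : Function.Periodic (uF B E d) (d * q) := uF_periodic B E (dvd_mul_right d q)
  have hu : ∀ n, |uF B E d n| ≤ (d : ℝ) ^ 2 := abs_uF_le hg (by omega)
  have hnorm : ∀ n, ‖phase B E C q a n‖ = 1 := fun n => norm_ee _
  have hfc : ∀ n, |fc n| ≤ (d : ℝ) ^ 2 := fun n => by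
    rw [abs_mul]
    exact (mul_le_of_le_one_right (abs_nonneg _)
      ((Complex.abs_re_le_norm _).trans (hnorm n).le)).trans (hu n)
  have hfs : ∀ n, |fs n| ≤ (d : ℝ) ^ 2 := fun n => by
    rw [abs_mul]
    exact (mul_le_of_le_one_right (abs_nonneg _)
      ((Complex.abs_im_le_norm _).trans (hnorm n).le)).trans (hu n)
  have hP : 0 < d * q := Nat.mul_pos hd hq
  have hPne : ((d * q : ℕ) : ℝ) ≠ 0 := by positivity
  have hμc : ∑ n ∈ range (d * q), fc n = ((d * q : ℕ) : ℝ) * (avg B E C q d a).re := by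
    rw [avg, Complex.div_natCast_re, Complex.re_sum, mul_div_cancel₀ _ hPne]
    simp [fc]
  have hμs : ∑ n ∈ range (d * q), fs n = ((d * q : ℕ) : ℝ) * (avg B E C q d a).im := by
    rw [avg, Complex.div_natCast_im, Complex.im_sum, mul_div_cancel₀ _ hPne]
    simp [fs]
  have hΛ : 0 ≤ Λ := by positivity
  have hc := periodic_mean fc (d * q) hP (fun n => by simp only [fc, hperu n, hper n]) _ hfc _ hμc
    φc (by fun_prop) M (by simp [φc, wQ_self]) Λ hΛ
    (wQ_mul_lip hg hM β Real.cos (fun y => -Real.sin y) Real.hasDerivAt_cos Real.abs_cos_le_one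
      fun y => by rw [abs_neg]; exact Real.abs_sin_le_one y)
  have hs := periodic_mean fs (d * q) hP (fun n => by simp only [fs, hperu n, hper n]) _ hfs _ hμs
    φs (by fun_prop) M (by simp [φs, wQ_self]) Λ hΛ
    (wQ_mul_lip hg hM β Real.sin Real.cos Real.hasDerivAt_sin Real.abs_sin_le_one
      Real.abs_cos_le_one)
  have hJc : Jc B E C M β = ∫ x in (0 : ℝ)..M, φc x := rfl
  have hJs : Js B E C M β = ∫ x in (0 : ℝ)..M, φs x := rfl
  rw [hsplit, hJc, hJs]
  push_cast at hc hs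
  have h2 := (abs_sub _ _).trans (add_le_add hc hs)
  refine le_trans (le_of_eq ?_) (h2.trans (le_of_eq ?_))
  · congr 1; ring
  · simp only [Λ]; ring

end Vale.Agent.P042.Quad
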