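import Mathlib

/-!
Exponential sums over the points of the unit circle modulo a prime: the sum of `e(l c d / p)` is
real and at most a constant times `p ^ (3 / 4)` (an elementary fourth-moment bound).
-/

open Finset

namespace Vale.Agent.P042.Quad

variable {p : ℕ} [Fact p.Prime]

/-- The points of the unit circle modulo `p` off the two diagonals. -/
def circ (p : ℕ) [Fact p.Prime] : Finset (ZMod p × ZMod p) :=
  univ.filter fun u => u.1 ^ 2 + u.2 ^ 2 = 1 ∧ u.1 ^ 2 ≠ u.2 ^ 2

/-- The exponential sum over the circle. -/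
noncomputable def circSum (p : ℕ) [Fact p.Prime] (l : ZMod p) : ℂ :=
  ∑ u ∈ circ p, ZMod.stdAddChar (l * u.1 * u.2)

theorem circSum_im (l : ZMod p) : (circSum p l).im = 0 := by
  refine Complex.conj_eq_iff_im.1 ?_
  rw [circSum, map_sum]
  refine sum_nbij' (fun u => (u.1, -u.2)) (fun u => (u.1, -u.2)) ?_ ?_ ?_ ?_ ?_
  · intro u hu; simpa [circ] using hu
  · intro u hu; simpa [circ] using hu
  · intro u _; simp
  · intro u _; simp
  · intro u _
    rw [mul_neg, AddChar.map_neg_eq_inv]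
    exact (Complex.inv_eq_conj (Circle.norm_coe _)).symm

lemma two_ne_zero_zmod (hp : p ≠ 2) : (2 : ZMod p) ≠ 0 := by
  intro h
  have h' : ((2 : ℕ) : ZMod p) = 0 := by exact_mod_cast h
  rw [ZMod.natCast_eq_zero_iff] at h'
  exact hp ((Nat.prime_dvd_prime_iff_eq Fact.out Nat.prime_two).1 h')

lemma card_root_le {A B C : ZMod p} (hA : A ≠ 0) (T : Finset (ZMod p))
    (hT : ∀ x ∈ T, A * x ^ 2 + B * x + C = 0) : T.card ≤ 2 := by
  by_contra h
  obtain ⟨x, hx, y, hy, z, hz, hxy, hxz, hyz⟩ := two_lt_card.1 (not_le.1 h)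
  have h1 : A * (x + y) + B = 0 := by
    refine (mul_eq_zero.1 ?_).resolve_left (sub_ne_zero.2 hxy)
    linear_combination hT x hx - hT y hy
  have h2 : A * (x + z) + B = 0 := by
    refine (mul_eq_zero.1 ?_).resolve_left (sub_ne_zero.2 hxz)
    linear_combination hT x hx - hT z hz
  have h3 : A * (y - z) = 0 := by linear_combination h1 - h2
  exact (mul_ne_zero hA (sub_ne_zero.2 hyz)) h3

lemma card_sq_le (r : ZMod p) (T : Finset (ZMod p)) (hT : ∀ x ∈ T, x ^ 2 = r) : T.card ≤ 2 :=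
  card_root_le (A := 1) (B := 0) (C := -r) one_ne_zero T fun x hx => by rw [hT x hx]; ring

theorem card_circ_fibre_le (hp : p ≠ 2) (X : ZMod p) :
    ((circ p).filter fun u => u.1 - u.2 = X).card ≤ 2 := by
  rw [← card_image_of_injOn (f := Prod.snd)]
  · refine card_root_le (A := 2) (B := 2 * X) (C := X ^ 2 - 1) (two_ne_zero_zmod hp) _ fun d hd => ?_
    obtain ⟨⟨c, d⟩, hu, rfl⟩ := mem_image.1 hd
    simp only [circ, mem_filter, mem_univ, true_and] at hu
    obtain ⟨⟨hu, -⟩, hX⟩ := hu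
    subst hX
    linear_combination hu
  · rintro ⟨c, d⟩ hu ⟨c', d'⟩ hu' h
    simp only [coe_filter, Set.mem_ofPred_eq] at hu hu'
    simp only at h
    subst h
    exact Prod.ext (by linear_combination hu.2 - hu'.2) rfl

/-- All points of the circle. -/
def fullCirc (p : ℕ) [Fact p.Prime] : Finset (ZMod p × ZMod p) :=
  univ.filter fun u => u.1 ^ 2 + u.2 ^ 2 = 1

lemma mem_fullCirc {u : ZMod p × ZMod p} : u ∈ fullCirc p ↔ u.1 ^ 2 + u.2 ^ 2 = 1 := by
  simp [fullCirc]

lemma circ_subset : circ p ⊆ fullCirc p := fun u hu => by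
  simp only [circ, mem_filter, mem_univ, true_and] at hu
  exact mem_fullCirc.2 hu.1

lemma card_fullCirc_le : (fullCirc p).card ≤ 2 * p := by
  have h := card_le_mul_card_image (f := Prod.fst) (fullCirc p) 2 fun c _ => by
    rw [← card_image_of_injOn (f := Prod.snd)]
    · refine card_sq_le (1 - c ^ 2) _ fun d hd => ?_
      obtain ⟨⟨c', d⟩, hu, rfl⟩ := mem_image.1 hd
      simp only [mem_filter, mem_fullCirc] at hu
      obtain ⟨hu, rfl⟩ := hu
      linear_combination hu
    · rintro ⟨c', d⟩ hu ⟨c'', d'⟩ hu' h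
      simp only [coe_filter, Set.mem_ofPred_eq] at hu hu'
      exact Prod.ext (hu.2.trans hu'.2.symm) h
  refine h.trans (Nat.mul_le_mul_left _ ?_)
  exact (card_le_univ _).trans (by simp)

/-- The doubled angle. -/
def dbl (u : ZMod p × ZMod p) : ZMod p × ZMod p := (u.1 ^ 2 - u.2 ^ 2, 2 * u.1 * u.2)

lemma dbl_mem {u : ZMod p × ZMod p} (hu : u ∈ fullCirc p) : dbl u ∈ fullCirc p := by
  rw [mem_fullCirc] at hu ⊢
  simp only [dbl]
  linear_combination (u.1 ^ 2 + u.2 ^ 2 + 1) * hu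

lemma card_dbl_le (hp : p ≠ 2) (v : ZMod p × ZMod p) :
    ((fullCirc p).filter fun u => dbl u = v).card ≤ 4 := by
  have h := card_le_mul_card_image (f := Prod.fst) ((fullCirc p).filter fun u => dbl u = v) 2
    fun c _ => by
      rw [← card_image_of_injOn (f := Prod.snd)]
      · refine card_sq_le (1 - c ^ 2) _ fun d hd => ?_
        obtain ⟨⟨c', d⟩, hu, rfl⟩ := mem_image.1 hd
        simp only [mem_filter, mem_fullCirc] at hu
        obtain ⟨⟨hu, -⟩, rfl⟩ := hu
        linear_combination hu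
      · rintro ⟨c', d⟩ hu ⟨c'', d'⟩ hu' h
        simp only [coe_filter, Set.mem_ofPred_eq] at hu hu'
        exact Prod.ext (hu.2.trans hu'.2.symm) h
  refine h.trans (le_trans (Nat.mul_le_mul_left _ ?_) (by norm_num : 2 * 2 ≤ 4))
  refine card_sq_le ((1 + v.1) / 2) _ fun c hc => ?_
  obtain ⟨u, hu, rfl⟩ := mem_image.1 hc
  simp only [mem_filter, mem_fullCirc] at hu
  obtain ⟨hu, rfl⟩ := hu
  rw [eq_div_iff (two_ne_zero_zmod hp)]
  simp only [dbl]
  linear_combination hu

lemma card_diag_le (hp : p ≠ 2) : (fullCirc p \ circ p).card ≤ 4 := by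
  have hsub : fullCirc p \ circ p ⊆ (fullCirc p).filter fun u => (dbl u).1 = 0 := fun u hu => by
    simp only [mem_sdiff, circ, mem_filter, mem_univ, true_and, mem_fullCirc, not_and,
      not_not] at hu ⊢
    exact ⟨hu.1, sub_eq_zero.2 (hu.2 hu.1)⟩
  have h := card_le_mul_card_image (f := Prod.fst) (fullCirc p \ circ p) 2 fun c _ => by
    rw [← card_image_of_injOn (f := Prod.snd)]
    · refine card_sq_le (1 - c ^ 2) _ fun d hd => ?_
      obtain ⟨⟨c', d⟩, hu, rfl⟩ := mem_image.1 hd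
      obtain ⟨hu', rfl⟩ := mem_filter.1 hu
      have := (mem_filter.1 (hsub hu')).1
      rw [mem_fullCirc] at this
      linear_combination this
    · rintro ⟨c', d⟩ hu ⟨c'', d'⟩ hu' h
      simp only [coe_filter, Set.mem_ofPred_eq] at hu hu'
      exact Prod.ext (hu.2.trans hu'.2.symm) h
  refine h.trans (le_trans (Nat.mul_le_mul_left _ ?_) (by norm_num : 2 * 2 ≤ 4))
  refine card_sq_le (1 / 2) _ fun c hc => ?_
  obtain ⟨u, hu, rfl⟩ := mem_image.1 hc
  obtain ⟨h1, h2⟩ := mem_filter.1 (hsub hu)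
  rw [mem_fullCirc] at h1
  simp only [dbl] at h2
  rw [eq_div_iff (two_ne_zero_zmod hp)]
  linear_combination h1 + h2

theorem card_circ_ge (hp : p ≠ 2) : p ≤ (circ p).card + 8 := by
  set T : Finset (ZMod p) := univ.filter fun t => 1 + t ^ 2 ≠ 0
  have hT : p ≤ T.card + 2 := by
    have h1 := card_filter_add_card_filter_not (s := (univ : Finset (ZMod p)))
      (p := fun t => 1 + t ^ 2 ≠ 0)
    have h2 : (univ.filter fun t : ZMod p => ¬ 1 + t ^ 2 ≠ 0).card ≤ 2 :=
      card_sq_le (-1) _ fun t ht => by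
        simp only [mem_filter, mem_univ, true_and, not_not] at ht
        linear_combination ht
    rw [card_univ, ZMod.card] at h1
    change T.card + _ = p at h1
    omega
  set F : ZMod p → ZMod p × ZMod p := fun t => ((1 - t ^ 2) / (1 + t ^ 2), 2 * t / (1 + t ^ 2))
  have hmaps : Set.MapsTo F T (fullCirc p) := fun t ht => by
    simp only [coe_filter, T, mem_univ, true_and, Set.mem_ofPred_eq] at ht
    rw [mem_coe, mem_fullCirc]
    simp only [F]
    field_simp
    ring
  have hinj : Set.InjOn F T := by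
    intro s hs t ht h
    simp only [coe_filter, T, mem_univ, true_and, Set.mem_ofPred_eq] at hs ht
    simp only [F, Prod.mk.injEq, div_eq_div_iff hs ht] at h
    obtain ⟨h1, h2⟩ := h
    have h3 : 2 * s ^ 2 = 2 * t ^ 2 := by linear_combination -h1
    have h4 := mul_left_cancel₀ (two_ne_zero_zmod hp) h3
    have h5 : 2 * (1 + s ^ 2) * s = 2 * (1 + s ^ 2) * t := by rw [← h4] at h2; linear_combination h2
    exact mul_left_cancel₀ (mul_ne_zero (two_ne_zero_zmod hp) hs) h5
  have h1 := card_le_card_of_injOn F hmaps hinj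
  have h2 := card_sdiff_add_card_eq_card (circ_subset (p := p))
  have h3 := card_diag_le hp
  omega

/-- The exponential sum over the doubled circle at a general frequency. -/
noncomputable def dblSum (p : ℕ) [Fact p.Prime] (e : ZMod p × ZMod p) : ℂ :=
  ∑ u ∈ fullCirc p, ZMod.stdAddChar (e.1 * (dbl u).1 + e.2 * (dbl u).2)

/-- Rotations of the circle do not change the sum. -/
lemma dblSum_rotate (m : ZMod p) {v : ZMod p × ZMod p} (hv : v ∈ fullCirc p) :
    dblSum p (m * (dbl v).2, m * (dbl v).1) = dblSum p (0, m) := by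
  rw [mem_fullCirc] at hv
  refine sum_nbij' (fun u => (v.1 * u.1 - v.2 * u.2, v.1 * u.2 + v.2 * u.1))
    (fun u => (v.1 * u.1 + v.2 * u.2, v.1 * u.2 - v.2 * u.1)) ?_ ?_ ?_ ?_ ?_
  · intro u hu
    rw [mem_fullCirc] at hu ⊢
    linear_combination (v.1 ^ 2 + v.2 ^ 2) * hu + hv
  · intro u hu
    rw [mem_fullCirc] at hu ⊢
    linear_combination (v.1 ^ 2 + v.2 ^ 2) * hu + hv
  · intro u _
    refine Prod.ext ?_ ?_ <;> simp only
    · linear_combination u.1 * hv
    · linear_combination u.2 * hv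
  · intro u _
    refine Prod.ext ?_ ?_ <;> simp only
    · linear_combination u.1 * hv
    · linear_combination u.2 * hv
  · intro u _
    congr 1
    simp only [dbl]
    ring

/-- Two circles meet in at most two points. -/
lemma card_meet_le (hp : p ≠ 2) {S : ZMod p × ZMod p} (hS : S ≠ 0) :
    ((fullCirc p).filter fun a => S - a ∈ fullCirc p).card ≤ 2 := by
  set F := (fullCirc p).filter fun a => S - a ∈ fullCirc p
  have hF : ∀ a ∈ F, a.1 ^ 2 + a.2 ^ 2 = 1 ∧
      2 * (S.1 * a.1 + S.2 * a.2) = S.1 ^ 2 + S.2 ^ 2 := fun a ha => by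
    simp only [F, mem_filter, mem_fullCirc, Prod.fst_sub, Prod.snd_sub] at ha
    exact ⟨ha.1, by linear_combination ha.1 - ha.2⟩
  have h2 := two_ne_zero_zmod hp
  by_cases h : S.2 = 0
  · have h1 : S.1 ≠ 0 := fun h1 => hS (Prod.ext h1 h)
    have hfst : ∀ a ∈ F, a.1 = S.1 / 2 := fun a ha => by
      have := (hF a ha).2
      rw [h] at this
      rw [eq_div_iff h2]
      refine mul_left_cancel₀ h1 ?_
      linear_combination this
    rw [← card_image_of_injOn (f := Prod.snd) fun a ha b hb e =>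
      Prod.ext ((hfst a ha).trans (hfst b hb).symm) e]
    refine card_sq_le (1 - (S.1 / 2) ^ 2) _ fun x hx => ?_
    obtain ⟨a, ha, rfl⟩ := mem_image.1 hx
    rw [← hfst a ha]
    linear_combination (hF a ha).1
  · rw [← card_image_of_injOn (f := Prod.fst) fun a ha b hb e => by
      refine Prod.ext e (mul_left_cancel₀ (mul_ne_zero h2 h) ?_)
      linear_combination (hF a ha).2 - (hF b hb).2 - 2 * S.1 * e]
    set q := S.1 ^ 2 + S.2 ^ 2
    by_cases hq : q = 0
    · rw [Nat.le_iff_lt_or_eq]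
      left
      suffices F = ∅ by simp [this]
      refine eq_empty_of_forall_notMem fun a ha => ?_
      obtain ⟨e1, e2⟩ := hF a ha
      rw [hq] at e2
      have e2' : S.1 * a.1 + S.2 * a.2 = 0 := (mul_eq_zero.1 e2).resolve_left h2
      have : S.2 ^ 2 = 0 := by
        linear_combination (a.1 ^ 2) * hq - S.2 ^ 2 * e1 + (S.2 * a.2 - S.1 * a.1) * e2'
      exact h (pow_eq_zero_iff (by norm_num) |>.1 this)
    · refine card_root_le (A := 4 * q) (B := -(4 * q * S.1)) (C := q ^ 2 - 4 * S.2 ^ 2)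
        (mul_ne_zero (by rw [show (4 : ZMod p) = 2 * 2 by norm_num]; exact mul_ne_zero h2 h2) hq)
        _ fun x hx => ?_
      obtain ⟨a, ha, rfl⟩ := mem_image.1 hx
      obtain ⟨e1, e2⟩ := hF a ha
      simp only [q]
      linear_combination 4 * S.2 ^ 2 * e1 -
        (q + 2 * S.2 * a.2 - 2 * S.1 * a.1) * (e2 : 2 * (S.1 * a.1 + S.2 * a.2) = q)

/-- Few pairs of doubled points have a given sum. -/
lemma card_pairs_le (hp : p ≠ 2) (S : ZMod p × ZMod p) :
    ((fullCirc p ×ˢ fullCirc p).filter fun x => dbl x.1 + dbl x.2 = S).card ≤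
      if S = 0 then 4 * (fullCirc p).card else 32 := by
  set F := (fullCirc p ×ˢ fullCirc p).filter fun x => dbl x.1 + dbl x.2 = S
  have hfib : ∀ u, (F.filter fun x => x.1 = u).card ≤ 4 := fun u => by
    refine le_trans ?_ (card_dbl_le hp (S - dbl u))
    refine card_le_card_of_injOn Prod.snd (fun x hx => ?_) fun x hx y hy e => ?_
    · simp only [coe_filter, Set.mem_ofPred_eq, F, mem_filter, mem_product] at hx ⊢
      exact ⟨hx.1.1.2, by rw [← hx.1.2, hx.2]; abel⟩
    · simp only [coe_filter, Set.mem_ofPred_eq] at hx hy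
      exact Prod.ext (hx.2.trans hy.2.symm) e
  have h := card_le_mul_card_image (f := Prod.fst) F 4 fun u _ => hfib u
  refine h.trans ?_
  split_ifs with hS
  · refine Nat.mul_le_mul_left _ (card_le_card fun u hu => ?_)
    obtain ⟨x, hx, rfl⟩ := mem_image.1 hu
    exact (mem_product.1 (mem_filter.1 hx).1).1
  · refine le_trans (Nat.mul_le_mul_left _ ?_) (by norm_num : 4 * 8 ≤ 32)
    have h' := card_le_mul_card_image (f := dbl) (F.image Prod.fst) 4 fun v _ => by
      refine le_trans (card_le_card fun u hu => ?_) (card_dbl_le hp v)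
      simp only [mem_filter, mem_image] at hu ⊢
      obtain ⟨⟨x, hx, rfl⟩, hv⟩ := hu
      exact ⟨(mem_product.1 (mem_filter.1 hx).1).1, hv⟩
    refine h'.trans (le_trans (Nat.mul_le_mul_left _ ?_) (by norm_num : 4 * 2 ≤ 8))
    refine le_trans (card_le_card fun a ha => ?_) (card_meet_le hp hS)
    simp only [mem_image] at ha
    obtain ⟨u, ⟨x, hx, rfl⟩, rfl⟩ := ha
    obtain ⟨hxm, hxS⟩ := mem_filter.1 hx
    rw [mem_product] at hxm
    rw [mem_filter, ← hxS, add_sub_cancel_left]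
    exact ⟨dbl_mem hxm.1, dbl_mem hxm.2⟩

lemma card_energy_le (hp : p ≠ 2) :
    ∑ x ∈ fullCirc p ×ˢ fullCirc p,
      ((fullCirc p ×ˢ fullCirc p).filter fun y => dbl y.1 + dbl y.2 = dbl x.1 + dbl x.2).card ≤
      48 * (fullCirc p).card ^ 2 := by
  set P := fullCirc p ×ˢ fullCirc p
  set g := (fullCirc p).card
  calc _ ≤ ∑ x ∈ P, (32 + if dbl x.1 + dbl x.2 = 0 then 4 * g else 0) :=
        sum_le_sum fun x _ => (card_pairs_le hp _).trans (by split_ifs <;> omega)
    _ = 32 * g ^ 2 + (P.filter fun x => dbl x.1 + dbl x.2 = 0).card * (4 * g) := by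
        rw [sum_add_distrib, sum_const, ← sum_filter, sum_const, smul_eq_mul, smul_eq_mul,
          card_product]
        ring
    _ ≤ 32 * g ^ 2 + (4 * g) * (4 * g) := by
        gcongr
        have := card_pairs_le hp (0 : ZMod p × ZMod p)
        rwa [if_pos rfl] at this
    _ = _ := by ring

lemma sum_circ_char (v : ZMod p × ZMod p) :
    ∑ e : ZMod p × ZMod p, ZMod.stdAddChar (e.1 * v.1 + e.2 * v.2) =
      if v = 0 then (p : ℂ) ^ 2 else 0 := by
  simp only [AddChar.map_add_eq_mul]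
  rw [Fintype.sum_prod_type]
  dsimp only
  rw [← Fintype.sum_mul_sum,
    AddChar.sum_mulShift v.1 (ZMod.isPrimitive_stdAddChar p),
    AddChar.sum_mulShift v.2 (ZMod.isPrimitive_stdAddChar p)]
  by_cases h1 : v.1 = 0 <;> by_cases h2 : v.2 = 0 <;> simp [h1, h2, Prod.ext_iff, ZMod.card, sq]

lemma fourth_moment (hp : p ≠ 2) :
    ∑ e : ZMod p × ZMod p, ‖dblSum p e‖ ^ 4 ≤ 48 * (p : ℝ) ^ 2 * ((fullCirc p).card : ℝ) ^ 2 := by
  set P := fullCirc p ×ˢ fullCirc p
  set S : (ZMod p × ZMod p) × (ZMod p × ZMod p) → ZMod p × ZMod p := fun x => dbl x.1 + dbl x.2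
  have hsq : ∀ e : ZMod p × ZMod p, dblSum p e ^ 2 =
      ∑ x ∈ P, ZMod.stdAddChar (e.1 * (S x).1 + e.2 * (S x).2) := fun e => by
    rw [sq, dblSum, sum_mul_sum, ← sum_product']
    refine sum_congr rfl fun x _ => ?_
    rw [← AddChar.map_add_eq_mul]
    congr 1
    simp only [S, Prod.fst_add, Prod.snd_add]
    ring
  have hterm : ∀ e : ZMod p × ZMod p, ((‖dblSum p e‖ ^ 4 : ℝ) : ℂ) =
      ∑ x ∈ P, ∑ y ∈ P, ZMod.stdAddChar (e.1 * (S x - S y).1 + e.2 * (S x - S y).2) := fun e => by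
    rw [show ‖dblSum p e‖ ^ 4 = ‖dblSum p e ^ 2‖ ^ 2 by rw [norm_pow]; ring, Complex.ofReal_pow,
      ← Complex.mul_conj', hsq, map_sum, sum_mul_sum]
    refine sum_congr rfl fun x _ => sum_congr rfl fun y _ => ?_
    have hc : ∀ z : ZMod p, starRingEnd ℂ (ZMod.stdAddChar z) = ZMod.stdAddChar (-z) := fun z => by
      rw [AddChar.map_neg_eq_inv]; exact (Complex.inv_eq_conj (Circle.norm_coe _)).symm
    rw [hc, ← AddChar.map_add_eq_mul]
    congr 1
    simp only [Prod.fst_sub, Prod.snd_sub]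
    ring
  have key : ((∑ e : ZMod p × ZMod p, ‖dblSum p e‖ ^ 4 : ℝ) : ℂ) =
      (((p : ℝ) ^ 2 * ((∑ x ∈ P, (P.filter fun y => S y = S x).card : ℕ) : ℝ) : ℝ) : ℂ) := by
    rw [Complex.ofReal_sum]
    simp only [hterm]
    rw [sum_comm]
    push_cast
    rw [mul_sum]
    refine sum_congr rfl fun x _ => ?_
    rw [sum_comm]
    simp only [sum_circ_char, sub_eq_zero]
    rw [← sum_filter, sum_const, nsmul_eq_mul, mul_comm,
      filter_congr fun y _ => eq_comm (a := S x) (b := S y)]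
  rw [Complex.ofReal_inj.1 key]
  have h : (((∑ x ∈ P, (P.filter fun y => S y = S x).card : ℕ)) : ℝ) ≤
      ((48 * (fullCirc p).card ^ 2 : ℕ) : ℝ) := by exact_mod_cast card_energy_le hp
  push_cast at h
  push_cast
  nlinarith [sq_nonneg (p : ℝ)]

theorem norm_circSum_le (hp : p ≠ 2) {l : ZMod p} (hl : l ≠ 0) :
    ‖circSum p l‖ ^ 4 ≤ 100000 * (p : ℝ) ^ 3 := by
  have h2 := two_ne_zero_zmod hp
  set m := l / 2
  have hm : m ≠ 0 := div_ne_zero hl h2
  have hlm : l = 2 * m := by simp only [m]; field_simp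
  set g := (fullCirc p).card
  set H := ‖dblSum p (0, m)‖
  -- the rotated frequencies
  set R := (fullCirc p).image fun v => ((m * (dbl v).2, m * (dbl v).1) : ZMod p × ZMod p)
  have hgR : g ≤ 4 * R.card := card_le_mul_card_image _ 4 fun b hb => by
    obtain ⟨v, hv, rfl⟩ := mem_image.1 hb
    refine le_trans (card_le_card fun u hu => ?_) (card_dbl_le hp (dbl v))
    simp only [mem_filter, Prod.mk.injEq, mul_right_inj' hm] at hu ⊢
    exact ⟨hu.1, Prod.ext hu.2.2 hu.2.1⟩
  have hR : (R.card : ℝ) * H ^ 4 ≤ 48 * (p : ℝ) ^ 2 * (g : ℝ) ^ 2 := by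
    calc (R.card : ℝ) * H ^ 4 = ∑ e ∈ R, ‖dblSum p e‖ ^ 4 := by
          rw [← nsmul_eq_mul, ← sum_const]
          refine sum_congr rfl fun e he => ?_
          obtain ⟨v, hv, rfl⟩ := mem_image.1 he
          rw [dblSum_rotate m hv]
      _ ≤ ∑ e : ZMod p × ZMod p, ‖dblSum p e‖ ^ 4 :=
          sum_le_sum_of_subset_of_nonneg (subset_univ R) fun e _ _ => by positivity
      _ ≤ _ := fourth_moment hp
  have hgp : (g : ℝ) ≤ 2 * p := by exact_mod_cast card_fullCirc_le
  have hgR' : (g : ℝ) ≤ 4 * R.card := by exact_mod_cast hgR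
  have hH : H ^ 4 ≤ 384 * (p : ℝ) ^ 3 := by
    rcases Nat.eq_zero_or_pos g with h0 | hpos
    · have : dblSum p (0, m) = 0 := by
        rw [dblSum, card_eq_zero.1 h0, sum_empty]
      simp only [H, this, norm_zero, zero_pow (by norm_num : (4 : ℕ) ≠ 0)]
      positivity
    · have hg0 : (0 : ℝ) < g := by exact_mod_cast hpos
      have h1 : (g : ℝ) * H ^ 4 ≤ (g : ℝ) * (192 * (p : ℝ) ^ 2 * g) := by
        nlinarith [mul_le_mul_of_nonneg_right hgR' (pow_nonneg (norm_nonneg _) 4 : 0 ≤ H ^ 4)]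
      have h3 := le_of_mul_le_mul_left h1 hg0
      nlinarith [sq_nonneg (p : ℝ), Nat.cast_nonneg (α := ℝ) p]
  have hle : ‖circSum p l‖ ≤ H + 4 := by
    have heq : circSum p l = dblSum p (0, m) -
        ∑ u ∈ fullCirc p \ circ p, ZMod.stdAddChar (l * u.1 * u.2) := by
      have e : dblSum p (0, m) = ∑ u ∈ fullCirc p, ZMod.stdAddChar (l * u.1 * u.2) :=
        sum_congr rfl fun u _ => by congr 1; simp only [dbl]; rw [hlm]; ring
      rw [e, ← sum_sdiff circ_subset, circSum]
      ring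
    rw [heq]
    refine (norm_sub_le _ _).trans (add_le_add le_rfl ((norm_sum_le _ _).trans ?_))
    simp only [Circle.norm_coe, ZMod.stdAddChar_apply, sum_const, nsmul_eq_mul, mul_one]
    exact_mod_cast card_diag_le hp
  have hp1 : (1 : ℝ) ≤ (p : ℝ) ^ 3 := one_le_pow₀ (by exact_mod_cast (Fact.out : p.Prime).one_le)
  have h4 : (H + 4) ^ 4 ≤ 8 * (H ^ 4 + 4 ^ 4) := by
    nlinarith [sq_nonneg (H - 4), sq_nonneg (H + 4), sq_nonneg (H ^ 2 - 16), norm_nonneg (dblSum p (0, m)),
      mul_nonneg (sq_nonneg (H - 4)) (sq_nonneg (H + 4)), mul_nonneg (sq_nonneg (H - 4)) (sq_nonneg H)]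
  have := pow_le_pow_left₀ (norm_nonneg (circSum p l)) hle 4
  linarith

end Vale.Agent.P042.Quad
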