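import Vale.Agent.P042.Odd.Gauss
import Vale.Agent.P042.Quad.Circle

/-!
The quadratic, the symmetrised local densities and the complete sums for the problem on differences
avoiding the values of an intersective quadratic.
-/

open Finset

namespace Vale.Agent.P042.Quad

/-- The standard exponential. -/
noncomputable def ee (x : ℝ) : ℂ := Complex.exp ((2 * Real.pi * x : ℝ) * Complex.I)

lemma ee_add (x y : ℝ) : ee (x + y) = ee x * ee y := by
  rw [ee, ee, ee, ← Complex.exp_add]; push_cast; ring_nf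

lemma ee_re (x : ℝ) : (ee x).re = Real.cos (2 * Real.pi * x) := Complex.exp_ofReal_mul_I_re _

lemma ee_im (x : ℝ) : (ee x).im = Real.sin (2 * Real.pi * x) := Complex.exp_ofReal_mul_I_im _

lemma norm_ee (x : ℝ) : ‖ee x‖ = 1 := Complex.norm_exp_ofReal_mul_I _

lemma ee_int (z : ℤ) : ee z = 1 := by
  rw [ee, Complex.exp_eq_one_iff]
  exact ⟨z, by push_cast; ring⟩

lemma ee_div_eq (q : ℕ) [NeZero q] (z : ℤ) : ee ((z : ℝ) / q) = ZMod.stdAddChar (z : ZMod q) := by
  rw [ee, ZMod.stdAddChar_coe]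
  congr 1
  push_cast
  ring

/-- A quadratic `B y ^ 2 + E y + C` normalised to discriminant one, all of whose small primes
divide `B`. -/
structure Good (B E C : ℤ) : Prop where
  posB : 0 < B
  posE : 0 < E
  posC : 0 < C
  disc : E ^ 2 - 4 * B * C = 1
  big : ∀ p : ℕ, p.Prime → ¬ (p : ℤ) ∣ B → 10 ^ 13 ≤ p

/-- The quadratic. -/
def quad (B E C : ℤ) {R : Type*} [CommRing R] (x : R) : R := B * x ^ 2 + E * x + C

/-- The symmetrised density modulo a prime. -/
noncomputable def dens (B E : ℤ) (p : ℕ) [Fact p.Prime] (y : ZMod p) : ℝ :=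
  if (B : ZMod p) = 0 then 1 else
    (p : ℝ) ^ (-(1 / 8 : ℝ)) * (if 2 * (B : ZMod p) * y + E = 1 then (p : ℝ) else 0) +
      (1 - (p : ℝ) ^ (-(1 / 8 : ℝ))) *
        ((p : ℝ) * ((circ p).filter fun u => u.1 - u.2 = 2 * (B : ZMod p) * y + E).card /
          (circ p).card)

/-- The mean-zero local weight. -/
noncomputable def locW (B E : ℤ) (p y : ℕ) : ℝ :=
  if h : p.Prime then
    haveI := Fact.mk h
    dens B E p (y : ZMod p) - 1
  else 0

/-- The weight attached to a squarefree modulus. -/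
noncomputable def uF (B E : ℤ) (d y : ℕ) : ℝ := ∏ p ∈ d.primeFactors, locW B E p y

/-- The phase. -/
noncomputable def phase (B E C : ℤ) (q : ℕ) (a : ℤ) (y : ℕ) : ℂ :=
  ee (((a * quad B E C (y : ℤ) : ℤ) : ℝ) / q)

/-- The normalised complete sum. -/
noncomputable def comp (B E C : ℤ) (q d : ℕ) (a : ℤ) : ℂ :=
  (∑ y ∈ range q, (uF B E d y : ℂ) * phase B E C q a y) / q

lemma locW_periodic (B E : ℤ) {p n : ℕ} (h : p ∣ n) : Function.Periodic (locW B E p) n := by
  intro y
  rw [locW, locW]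
  split_ifs
  · rw [Nat.cast_add, (ZMod.natCast_eq_zero_iff _ _).2 h, add_zero]
  · rfl

lemma uF_periodic (B E : ℤ) {d n : ℕ} (h : d ∣ n) : Function.Periodic (uF B E d) n := fun _ =>
  prod_congr rfl fun _ hp =>
    locW_periodic B E ((Nat.dvd_of_mem_primeFactors hp).trans h) _

lemma uF_mul (B E : ℤ) {d d' : ℕ} (h : d.Coprime d') (y : ℕ) :
    uF B E (d * d') y = uF B E d y * uF B E d' y := by
  rw [uF, uF, uF, h.primeFactors_mul, prod_union h.disjoint_primeFactors]

lemma uF_one (B E : ℤ) (y : ℕ) : uF B E 1 y = 1 := by simp [uF]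

lemma uF_prime (B E : ℤ) {p : ℕ} (hp : p.Prime) (y : ℕ) : uF B E p y = locW B E p y := by
  simp [uF, hp.primeFactors]

lemma phase_eq (B E C : ℤ) (q : ℕ) [NeZero q] (a : ℤ) (y : ℕ) :
    phase B E C q a y = ZMod.stdAddChar ((a : ZMod q) * quad B E C (y : ZMod q)) := by
  rw [phase, ee_div_eq]
  simp [quad]

lemma phase_periodic (B E C : ℤ) (q : ℕ) [NeZero q] (a : ℤ) :
    Function.Periodic (phase B E C q a) q := by
  intro y
  rw [phase_eq, phase_eq]
  simp

lemma phase_mul (B E C : ℤ) {q r : ℕ} [NeZero q] [NeZero r] (a₁ a₂ : ℤ) (y : ℕ) :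
    phase B E C (q * r) (a₁ * r + a₂ * q) y = phase B E C q a₁ y * phase B E C r a₂ y := by
  rw [phase, phase, phase, ← ee_add]
  congr 1
  have hq : (q : ℝ) ≠ 0 := NeZero.ne _
  have hr : (r : ℝ) ≠ 0 := NeZero.ne _
  push_cast
  field_simp

/-- A product of two periodic functions of coprime periods has the product of the sums. -/
lemma sum_mul_periodic {q r : ℕ} (h : q.Coprime r) (hq : q ≠ 0) (hr : r ≠ 0) (F G : ℕ → ℂ)
    (hF : Function.Periodic F q) (hG : Function.Periodic G r) :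
    ∑ n ∈ range (q * r), F n * G n = (∑ n ∈ range q, F n) * ∑ n ∈ range r, G n := by
  rw [sum_mul_sum, ← sum_product']
  refine sum_bij' (fun n _ => (n % q, n % r)) (fun x _ => (Nat.chineseRemainder h x.1 x.2 : ℕ))
    ?_ ?_ ?_ ?_ ?_
  · intro n _
    simp [Nat.mod_lt _ (Nat.pos_of_ne_zero hq), Nat.mod_lt _ (Nat.pos_of_ne_zero hr)]
  · intro x _
    exact mem_range.2 (Nat.chineseRemainder_lt_mul h _ _ hq hr)
  · intro n hn
    exact ((Nat.chineseRemainder_modEq_unique h (Nat.mod_modEq n q).symm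
      (Nat.mod_modEq n r).symm).eq_of_lt_of_lt (mem_range.1 hn)
        (Nat.chineseRemainder_lt_mul h _ _ hq hr)).symm
  · intro x hx
    simp only [mem_product, mem_range] at hx
    obtain ⟨h1, h2⟩ := (Nat.chineseRemainder h x.1 x.2).2
    exact Prod.ext (Eq.trans h1 (Nat.mod_eq_of_lt hx.1)) (Eq.trans h2 (Nat.mod_eq_of_lt hx.2))
  · intro n _
    simp only [hF.map_mod_nat, hG.map_mod_nat]

lemma comp_mul (B E C : ℤ) {q r : ℕ} [NeZero q] [NeZero r] (h : q.Coprime r) {d d' : ℕ}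
    (hd : d ∣ q) (hd' : d' ∣ r) (a₁ a₂ : ℤ) :
    comp B E C (q * r) (d * d') (a₁ * r + a₂ * q) = comp B E C q d a₁ * comp B E C r d' a₂ := by
  rw [comp, comp, comp, div_mul_div_comm, ← Nat.cast_mul,
    ← sum_mul_periodic h (NeZero.ne q) (NeZero.ne r)]
  · congr 1
    refine sum_congr rfl fun y _ => ?_
    rw [uF_mul B E ((h.coprime_dvd_left hd).coprime_dvd_right hd'), phase_mul]
    push_cast
    ring
  · intro y; simp only [(uF_periodic B E hd) y, phase_periodic B E C q a₁ y]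
  · intro y; simp only [(uF_periodic B E hd') y, phase_periodic B E C r a₂ y]

lemma abs_locW_le {B E C : ℤ} (hg : Good B E C) {p : ℕ} (hp : p.Prime) (y : ℕ) :
    |locW B E p y| ≤ (p : ℝ) ^ 2 := by
  have := Fact.mk hp
  rw [locW, dif_pos hp, dens]
  split_ifs with hB hX
  · simp
  all_goals
    have hp13 := hg.big p hp fun hd => hB ((ZMod.intCast_zmod_eq_zero_iff_dvd _ _).2 hd)
    have hp2 : p ≠ 2 := by omega
    have hpr : (10 : ℝ) ^ 13 ≤ p := by exact_mod_cast hp13
    have hc := card_circ_ge (p := p) hp2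
    have hfib := card_circ_fibre_le hp2 (2 * (B : ZMod p) * (y : ZMod p) + E)
    set F := (((circ p).filter fun u => u.1 - u.2 = 2 * (B : ZMod p) * (y : ZMod p) + E).card : ℝ)
    set K := ((circ p).card : ℝ)
    have hK : 1 ≤ K := by simp only [K]; exact_mod_cast (show 1 ≤ (circ p).card by omega)
    have hF : F ≤ 2 := by simp only [F]; exact_mod_cast hfib
    have hF0 : 0 ≤ (p : ℝ) * F / K := by positivity
    have hF1 : (p : ℝ) * F / K ≤ 2 * p := by
      rw [div_le_iff₀ (by linarith)]; nlinarith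
    have h0 : 0 < (p : ℝ) ^ (-(1 / 8 : ℝ)) := by positivity
    have h1 : (p : ℝ) ^ (-(1 / 8 : ℝ)) ≤ 1 :=
      Real.rpow_le_one_of_one_le_of_nonpos (by linarith) (by norm_num)
    rw [abs_le]
    constructor <;> nlinarith

lemma abs_uF_le {B E C : ℤ} (hg : Good B E C) {d : ℕ} (hd : d ≠ 0) (y : ℕ) :
    |uF B E d y| ≤ (d : ℝ) ^ 2 := by
  rw [uF, abs_prod]
  refine (prod_le_prod (fun p _ => abs_nonneg _)
    fun p hp => abs_locW_le hg (Nat.prime_of_mem_primeFactors hp) y).trans ?_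
  rw [prod_pow]
  refine pow_le_pow_left₀ (prod_nonneg fun p _ => Nat.cast_nonneg _) ?_ 2
  rw [← Nat.cast_prod]
  exact_mod_cast Nat.le_of_dvd (Nat.pos_of_ne_zero hd) (Nat.prod_primeFactors_dvd d)

/-- The real quadratic. -/
noncomputable def quadR (B E C : ℤ) (x : ℝ) : ℝ := B * x ^ 2 + E * x + C

/-- The Fejér weight. -/
noncomputable def wQ (B E C : ℤ) (M : ℕ) (x : ℝ) : ℝ :=
  (2 * B * x + E) * (quadR B E C M - quadR B E C x)

/-- One term of the test polynomial. -/
noncomputable def term (B E C : ℤ) (M d : ℕ) (θ : ℝ) : ℝ :=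
  ∑ n ∈ range M, uF B E d n * (wQ B E C M n * Real.cos (2 * Real.pi * θ * quadR B E C n))

/-- The mean of the periodic factor of a term. -/
noncomputable def avg (B E C : ℤ) (q d : ℕ) (a : ℤ) : ℂ :=
  (∑ y ∈ range (d * q), (uF B E d y : ℂ) * phase B E C q a y) / ((d * q : ℕ) : ℂ)

/-- The cosine integral. -/
noncomputable def Jc (B E C : ℤ) (M : ℕ) (β : ℝ) : ℝ :=
  ∫ x in (0 : ℝ)..M, wQ B E C M x * Real.cos (2 * Real.pi * β * quadR B E C x)

/-- The sine integral. -/
noncomputable def Js (B E C : ℤ) (M : ℕ) (β : ℝ) : ℝ :=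
  ∫ x in (0 : ℝ)..M, wQ B E C M x * Real.sin (2 * Real.pi * β * quadR B E C x)

end Vale.Agent.P042.Quad
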