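import Vale.Agent.P042.Quad.Defs
import Vale.Agent.P042.Odd.Local

/-!
The complete weighted series is real and nonnegative, and its terms decay.
-/

open Finset

namespace Vale.Agent.P042.Quad

/-- The squarefree divisors. -/
def sfd (q : ℕ) : Finset ℕ := q.divisors.filter Squarefree

/-- The complete series. -/
noncomputable def full (B E C : ℤ) (q : ℕ) (a : ℤ) : ℂ := ∑ d ∈ sfd q, comp B E C q d a

/-- The complete series of absolute values with the exponent `1 / 16`. -/
noncomputable def lamt (B E C : ℤ) (q : ℕ) (a : ℤ) : ℝ :=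
  ∑ d ∈ sfd q, (d : ℝ) ^ (1 / 16 : ℝ) * ‖comp B E C q d a‖

lemma sum_sfd_mul {M : Type*} [AddCommMonoid M] {q r : ℕ} (hq : q ≠ 0) (hr : r ≠ 0)
    (h : q.Coprime r) (f : ℕ → M) :
    ∑ d ∈ sfd (q * r), f d = ∑ x ∈ sfd q, ∑ y ∈ sfd r, f (x * y) := by
  simp only [sfd, sum_filter]
  rw [Odd.sum_divisors_coprime hq hr h]
  refine sum_congr rfl fun x hx => ?_
  by_cases hsx : Squarefree x
  · rw [if_pos hsx]
    refine sum_congr rfl fun y hy => ?_
    have hc : x.Coprime y := (h.coprime_dvd_left (Nat.dvd_of_mem_divisors hx)).coprime_dvd_right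
      (Nat.dvd_of_mem_divisors hy)
    simp only [Nat.squarefree_mul hc, hsx, true_and]
  · rw [if_neg hsx]
    exact sum_eq_zero fun y _ => if_neg fun hs => hsx hs.of_mul_left

lemma sfd_prime_pow {p e : ℕ} (hp : p.Prime) (he : 1 ≤ e) : sfd (p ^ e) = {1, p} := by
  ext d
  simp only [sfd, mem_filter, Nat.mem_divisors, mem_insert, mem_singleton]
  constructor
  · rintro ⟨⟨hd, -⟩, hs⟩
    obtain ⟨i, -, rfl⟩ := (Nat.dvd_prime_pow hp).1 hd
    rcases eq_or_ne i 0 with rfl | hi
    · simp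
    · right
      rw [((Nat.squarefree_pow_iff hp.ne_one hi).1 hs).2, pow_one]
  · rintro (rfl | rfl)
    · exact ⟨⟨one_dvd _, pow_ne_zero _ hp.ne_zero⟩, squarefree_one⟩
    · exact ⟨⟨dvd_pow_self _ (by omega), pow_ne_zero _ hp.ne_zero⟩, hp.squarefree⟩

variable {B E C : ℤ}

lemma norm_sum_quad_sq {N : ℕ} [NeZero N] (a : ZMod N) (ha : IsUnit a)
    (hB : IsUnit (2 * (B : ZMod N))) :
    ‖∑ y : ZMod N, ZMod.stdAddChar (a * quad B E C y)‖ ^ 2 = N := by
  set S := ∑ y : ZMod N, ZMod.stdAddChar (a * quad B E C y) with hS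
  have hconj : starRingEnd ℂ S = ∑ y : ZMod N, ZMod.stdAddChar (-(a * quad B E C y)) := by
    rw [hS, map_sum]
    refine sum_congr rfl fun y _ => ?_
    rw [AddChar.map_neg_eq_inv]
    exact (Complex.inv_eq_conj (Circle.norm_coe _)).symm
  apply Complex.ofReal_injective
  rw [Complex.ofReal_pow, ← Complex.mul_conj', hconj, hS, sum_mul_sum, sum_comm]
  have key : ∀ y : ZMod N, ∑ x : ZMod N, ZMod.stdAddChar (a * quad B E C x) *
      ZMod.stdAddChar (-(a * quad B E C y)) =
      ∑ h : ZMod N, ZMod.stdAddChar (a * (h * (2 * (B : ZMod N) * y + (B : ZMod N) * h + (E : ZMod N)))) := by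
    intro y
    refine (Fintype.sum_equiv (Equiv.addLeft y) _ _ fun h => ?_).symm
    rw [← AddChar.map_add_eq_mul, Equiv.coe_addLeft]
    congr 1
    simp only [quad]
    ring
  simp only [key]
  rw [sum_comm]
  have inner : ∀ h : ZMod N, ∑ y : ZMod N, ZMod.stdAddChar (a * (h * (2 * (B : ZMod N) * y + (B : ZMod N) * h + (E : ZMod N)))) =
      if h = 0 then (N : ℂ) else 0 := by
    intro h
    have e : ∀ y : ZMod N, ZMod.stdAddChar (a * (h * (2 * (B : ZMod N) * y + (B : ZMod N) * h + (E : ZMod N)))) =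
        ZMod.stdAddChar (y * (a * h * (2 * (B : ZMod N)))) * ZMod.stdAddChar (a * (h * ((B : ZMod N) * h + (E : ZMod N)))) := by
      intro y
      rw [← AddChar.map_add_eq_mul]
      congr 1
      ring
    simp only [e, ← sum_mul]
    rw [AddChar.sum_mulShift _ (ZMod.isPrimitive_stdAddChar N), ZMod.card]
    rcases eq_or_ne h 0 with rfl | hh
    · simp
    · rw [if_neg hh, if_neg, Nat.cast_zero, zero_mul]
      rw [mul_comm a h, mul_assoc]
      exact fun h0 => hh ((ha.mul hB).mul_left_eq_zero.1 h0)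
  simp [inner]

lemma quad_injective {p e : ℕ} [hp : Fact p.Prime] (hB : (p : ℤ) ∣ B)
    (hdisc : E ^ 2 - 4 * B * C = 1) :
    Function.Injective (quad B E C : ZMod (p ^ e) → ZMod (p ^ e)) := by
  intro x y hxy
  have hE : IsUnit (E : ZMod (p ^ e)) := by
    have h1 : (E : ZMod (p ^ e)) * (E : ZMod (p ^ e)) - 4 * (B : ZMod (p ^ e)) * C = 1 := by
      have := congrArg (fun z : ℤ => (z : ZMod (p ^ e))) hdisc
      push_cast at this
      rw [← this]; ring
    have hnil : IsNilpotent (4 * (B : ZMod (p ^ e)) * C) := by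
      refine ⟨e, ?_⟩
      obtain ⟨B', rfl⟩ := hB
      push_cast
      rw [show (4 : ZMod (p ^ e)) * ((p : ZMod (p ^ e)) * B') * C = p * (4 * B' * C) by ring, mul_pow,
        ← Nat.cast_pow, ZMod.natCast_self, zero_mul]
    have : IsUnit ((E : ZMod (p ^ e)) * E) := by
      rw [sub_eq_iff_eq_add.1 h1]
      exact hnil.isUnit_one_add
    exact (IsUnit.mul_iff.1 this).1
  have hu : IsUnit ((B : ZMod (p ^ e)) * (x + y) + E) := by
    refine IsNilpotent.isUnit_add_right_of_commute ?_ hE (Commute.all _ _)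
    refine ⟨e, ?_⟩
    obtain ⟨B', rfl⟩ := hB
    push_cast
    rw [mul_assoc, mul_pow, ← Nat.cast_pow, ZMod.natCast_self, zero_mul]
  have h0 : (x - y) * ((B : ZMod (p ^ e)) * (x + y) + E) = 0 := by
    simp only [quad] at hxy
    linear_combination hxy
  exact sub_eq_zero.1 (hu.mul_left_eq_zero.1 h0)

lemma comp_one_eq (q : ℕ) [NeZero q] (a : ℤ) :
    comp B E C q 1 a = (∑ y : ZMod q, ZMod.stdAddChar ((a : ZMod q) * quad B E C y)) / q := by
  rw [comp, ← Odd.sum_range_zmod]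
  simp [uF_one, phase_eq]

lemma comp_prime_eq {p e : ℕ} [hp : Fact p.Prime] (he : 1 ≤ e) (a : ℤ) :
    comp B E C (p ^ e) 1 a + comp B E C (p ^ e) p a =
      (∑ y : ZMod (p ^ e), (dens B E p (ZMod.castHom (dvd_pow_self p (by omega)) (ZMod p) y) : ℂ) *
        ZMod.stdAddChar ((a : ZMod (p ^ e)) * quad B E C y)) / (p ^ e : ℕ) := by
  rw [comp, comp, ← add_div, ← sum_add_distrib, ← Odd.sum_range_zmod]
  congr 1
  refine sum_congr rfl fun y _ => ?_
  rw [uF_one, uF_prime B E hp.out, phase_eq, map_natCast, locW, dif_pos hp.out]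
  push_cast
  ring

lemma comp_prime_one {p : ℕ} [hp : Fact p.Prime] (a : ℤ) :
    comp B E C p 1 a + comp B E C p p a =
      (∑ y : ZMod p, (dens B E p y : ℂ) * ZMod.stdAddChar ((a : ZMod p) * quad B E C y)) / p := by
  rw [comp, comp, ← add_div, ← sum_add_distrib, ← Odd.sum_range_zmod]
  congr 1
  refine sum_congr rfl fun y _ => ?_
  rw [uF_one, uF_prime B E hp.out, phase_eq, locW, dif_pos hp.out]
  push_cast
  ring

lemma isUnit_int_pow {p e : ℕ} [hp : Fact p.Prime] {z : ℤ} (hz : ¬ (p : ℤ) ∣ z) :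
    IsUnit (z : ZMod (p ^ e)) := by
  rw [ZMod.coe_int_isUnit_iff_isCoprime, Nat.cast_pow]
  exact ((Nat.prime_iff_prime_int.1 hp.out).coprime_iff_not_dvd.2 hz).symm.pow_right.symm

lemma two_dvd_of_good (hg : Good B E C) : (2 : ℤ) ∣ B := by
  by_contra h
  have := hg.big 2 Nat.prime_two (by exact_mod_cast h)
  omega

lemma sum_dens_eq_zero {p e : ℕ} [hp : Fact p.Prime] (hg : Good B E C) (he : 2 ≤ e)
    (hB : ¬ (p : ℤ) ∣ B) {a : ℤ} (ha : ¬ (p : ℤ) ∣ a) :
    ∑ y : ZMod (p ^ e), (dens B E p (ZMod.castHom (dvd_pow_self p (by omega)) (ZMod p) y) : ℂ) *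
        ZMod.stdAddChar ((a : ZMod (p ^ e)) * quad B E C y) = 0 := by
  set φ := ZMod.castHom (dvd_pow_self p (show e ≠ 0 by omega)) (ZMod p) with hφ
  set π : ZMod (p ^ e) := (p : ZMod (p ^ e)) ^ (e - 1) with hπ
  set S := ∑ y : ZMod (p ^ e), (dens B E p (φ y) : ℂ) *
        ZMod.stdAddChar ((a : ZMod (p ^ e)) * quad B E C y) with hS
  have hπ2 : π * π = 0 := by
    rw [hπ, ← pow_add, ← Nat.cast_pow, ZMod.natCast_eq_zero_iff]
    exact pow_dvd_pow _ (by omega)
  have hφπ : φ π = 0 := by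
    rw [hπ, map_pow, map_natCast, ZMod.natCast_self, zero_pow (by omega)]
  have hshift : ∀ s : ZMod (p ^ e), S = ∑ y : ZMod (p ^ e), (dens B E p (φ y) : ℂ) *
      (ZMod.stdAddChar ((a : ZMod (p ^ e)) * quad B E C y) *
        ZMod.stdAddChar (s * ((a : ZMod (p ^ e)) * π * (2 * (B : ZMod (p ^ e)) * y + (E : ZMod (p ^ e)))))) := by
    intro s
    refine (Fintype.sum_equiv (Equiv.addRight (π * s)) _ _ fun y => ?_).symm
    rw [Equiv.coe_addRight, map_add φ, map_mul φ, hφπ, zero_mul, add_zero, ← AddChar.map_add_eq_mul]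
    congr 2
    simp only [quad]
    linear_combination (-(a : ZMod (p ^ e)) * B * s ^ 2) * hπ2
  have hsum : ((p ^ e : ℕ) : ℂ) * S = 0 := by
    have : ((p ^ e : ℕ) : ℂ) * S = ∑ _s : ZMod (p ^ e), S := by simp
    rw [this, sum_congr rfl fun s _ => hshift s, sum_comm]
    refine sum_eq_zero fun y _ => ?_
    rw [← mul_sum, ← mul_sum, AddChar.sum_mulShift _ (ZMod.isPrimitive_stdAddChar _)]
    by_cases hX : φ (2 * (B : ZMod (p ^ e)) * y + (E : ZMod (p ^ e))) = 0
    · have h0 : 2 * (B : ZMod p) * φ y + E = 0 := by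
        rw [← hX, map_add φ, map_mul φ, map_mul φ, map_ofNat φ 2, map_intCast φ, map_intCast φ]
      have hB' : (B : ZMod p) ≠ 0 := by rwa [Ne, ZMod.intCast_zmod_eq_zero_iff_dvd]
      have : dens B E p (φ y) = 0 := by
        rw [dens, if_neg hB', h0, if_neg zero_ne_one, filter_eq_empty_iff.2]
        · simp
        · intro u hu h1
          simp only [circ, mem_filter] at hu
          exact hu.2.2 (by rw [sub_eq_zero.1 h1])
      simp [this]
    · rw [if_neg, Nat.cast_zero, mul_zero, mul_zero]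
      intro h0
      have hX' : IsUnit (2 * (B : ZMod (p ^ e)) * y + (E : ZMod (p ^ e))) := by
        rw [← ZMod.natCast_zmod_val (2 * (B : ZMod (p ^ e)) * y + (E : ZMod (p ^ e))), ZMod.isUnit_iff_coprime]
        refine Nat.Coprime.pow_right _ (Nat.Coprime.symm ((hp.out.coprime_iff_not_dvd).2 fun hd => hX ?_))
        rw [← ZMod.natCast_zmod_val (2 * (B : ZMod (p ^ e)) * y + (E : ZMod (p ^ e))), map_natCast,
          ZMod.natCast_eq_zero_iff]
        exact hd
      have hπ0 : π ≠ 0 := by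
        rw [hπ, Ne, ← Nat.cast_pow, ZMod.natCast_eq_zero_iff,
          Nat.pow_dvd_pow_iff_le_right hp.out.one_lt]
        omega
      exact hπ0 ((isUnit_int_pow ha).mul_right_eq_zero.1 (hX'.mul_left_eq_zero.1 h0))
  rcases mul_eq_zero.1 hsum with h | h
  · exact absurd (Nat.cast_eq_zero.1 h) (pow_ne_zero _ hp.out.ne_zero)
  · exact h

/-- Numerical facts about `h = p ^ (-1/8)`. -/
lemma weight_bounds {p : ℕ} (hp : 10 ^ 13 ≤ p) :
    let h := (p : ℝ) ^ (-(1 / 8 : ℝ))
    0 < h ∧ h ≤ 1 / 36 ∧ 100000 * (p : ℝ) ^ 3 ≤ ((p : ℝ) / 2 * h) ^ 4 ∧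
      1 / (p : ℝ) ≤ h ^ 2 ∧ (p : ℝ) ^ (1 / 16 : ℝ) * (4 * h) + h ≤ 1 := by
  intro h
  have hp0 : (0 : ℝ) < p := by exact_mod_cast (show 0 < p by omega)
  have hP : (10 : ℝ) ^ 13 ≤ p := by exact_mod_cast hp
  set s := (p : ℝ) ^ (-(1 / 16 : ℝ)) with hs
  have hs0 : 0 < s := by positivity
  have hh : h = s ^ 2 := by
    rw [hs, ← Real.rpow_natCast, ← Real.rpow_mul hp0.le]; norm_num [h]
  have hs16 : s ^ 16 * p = 1 := by
    rw [hs, ← Real.rpow_natCast, ← Real.rpow_mul hp0.le]
    norm_num [Real.rpow_neg_one]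
    field_simp
  have hs6 : s ≤ 1 / 6 := by
    by_contra hc
    push Not at hc
    have : ((1 : ℝ) / 6) ^ 16 * 10 ^ 13 < s ^ 16 * p :=
      mul_lt_mul (pow_lt_pow_left₀ hc (by norm_num) (by norm_num)) hP (by positivity) (by positivity)
    rw [hs16] at this
    norm_num at this
  have hps : (p : ℝ) ^ (1 / 16 : ℝ) * s = 1 := by
    rw [hs, ← Real.rpow_add hp0]; norm_num
  refine ⟨by positivity, by rw [hh]; nlinarith, ?_, ?_, ?_⟩
  · have h8 : 1600000 * s ^ 8 ≤ 1 := by
      have : s ^ 8 ≤ (1 / 6) ^ 8 := pow_le_pow_left₀ hs0.le hs6 8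
      norm_num at this ⊢
      linarith
    rw [hh]
    have e : ((p : ℝ) / 2 * s ^ 2) ^ 4 = (p : ℝ) ^ 4 * s ^ 8 / 16 := by ring
    rw [e, le_div_iff₀ (by norm_num)]
    nlinarith [mul_le_mul_of_nonneg_right h8 (show (0 : ℝ) ≤ p ^ 4 * s ^ 8 by positivity),
      show (p : ℝ) ^ 4 * s ^ 16 = p ^ 3 by rw [← mul_one ((p : ℝ) ^ 3), ← hs16]; ring]
  · rw [hh, div_le_iff₀ hp0, ← hs16]
    have h12 : s ^ 12 ≤ 1 := pow_le_one₀ hs0.le (by linarith)
    nlinarith [mul_le_mul_of_nonneg_right h12 (show (0 : ℝ) ≤ p * s ^ 4 by positivity)]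
  · rw [hh, show (p : ℝ) ^ (1 / 16 : ℝ) * (4 * s ^ 2) = (p : ℝ) ^ (1 / 16 : ℝ) * s * (4 * s) by ring,
      hps]
    nlinarith

/-- The first-order symmetrised sum is real, nonnegative and small. -/
lemma dens_sum_prime {p : ℕ} [hp : Fact p.Prime] (hg : Good B E C) (hB : ¬ (p : ℤ) ∣ B)
    (hP : 10 ^ 13 ≤ p) {a : ZMod p} (ha : a ≠ 0) :
    let h := (p : ℝ) ^ (-(1 / 8 : ℝ))
    ∃ D : ℝ, 0 ≤ D ∧ D ≤ 2 * h ∧
      (∑ y : ZMod p, (dens B E p y : ℂ) * ZMod.stdAddChar (a * quad B E C y)) / (p : ℂ) = D := by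
  intro h
  obtain ⟨hh0, hh36, hh4, -, -⟩ := weight_bounds hP
  have hp2 : p ≠ 2 := by omega
  have hB' : (B : ZMod p) ≠ 0 := by rwa [Ne, ZMod.intCast_zmod_eq_zero_iff_dvd]
  have h2 : (2 : ZMod p) ≠ 0 := by
    intro h2
    have : ((2 : ℕ) : ZMod p) = 0 := by exact_mod_cast h2
    rw [ZMod.natCast_eq_zero_iff] at this
    have := Nat.le_of_dvd (by omega) this
    omega
  set l : ZMod p := -a * (2 * (B : ZMod p))⁻¹ with hl
  have hl0 : l ≠ 0 := mul_ne_zero (neg_ne_zero.2 ha) (inv_ne_zero (mul_ne_zero h2 hB'))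
  set K : ℝ := ((circ p).card : ℝ) with hK
  have hcard := card_circ_ge (p := p) hp2
  have hKp : (p : ℝ) / 2 ≤ K := by
    have h' : (p : ℝ) ≤ 2 * K := by
      rw [hK]; exact_mod_cast (show p ≤ 2 * (circ p).card by omega)
    linarith
  have hK0 : 0 < K := lt_of_lt_of_le (by have := hp.out.pos; positivity) hKp
  have hreal : (circSum p l) = ((circSum p l).re : ℂ) :=
    Complex.ext (Complex.ofReal_re _).symm (by rw [Complex.ofReal_im, circSum_im])
  set μ := (circSum p l).re / K with hμ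
  have hμb : |μ| ≤ h := by
    rw [hμ, abs_div, abs_of_pos hK0, div_le_iff₀ hK0]
    refine (Complex.abs_re_le_norm _).trans ?_
    refine (pow_le_pow_iff_left₀ (norm_nonneg _) (mul_nonneg hh0.le hK0.le) (by norm_num : 4 ≠ 0)).1 ?_
    refine (norm_circSum_le hp2 hl0).trans (hh4.trans ?_)
    rw [mul_comm h]
    gcongr
  refine ⟨h + (1 - h) * μ, ?_, ?_, ?_⟩
  · have := abs_le.1 hμb
    nlinarith [mul_nonneg hh0.le hh0.le]
  · have := abs_le.1 hμb
    nlinarith
  have hdisc : (E : ZMod p) * E - 4 * B * C = 1 := by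
    have := congrArg (fun z : ℤ => (z : ZMod p)) hg.disc
    push_cast at this
    rw [← this]; ring
  have h4f : ∀ y : ZMod p,
      4 * (B : ZMod p) * quad B E C y = (2 * B * y + E) ^ 2 - 1 := fun y => by
    simp only [quad]; linear_combination -hdisc
  have hbij : Function.Bijective fun y : ZMod p => 2 * (B : ZMod p) * y + E :=
    Finite.injective_iff_bijective.1 fun x y hxy =>
      mul_left_cancel₀ (mul_ne_zero h2 hB') (add_right_cancel hxy)
  set e := Equiv.ofBijective _ hbij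
  have hroot : ∑ y : ZMod p, ((if 2 * (B : ZMod p) * y + E = 1 then (p : ℝ) else 0 : ℝ) : ℂ) *
      ZMod.stdAddChar (a * quad B E C y) = p := by
    have he : ∀ y, 2 * (B : ZMod p) * y + E = 1 ↔ y = e.symm 1 := fun y =>
      ⟨fun h' => e.eq_symm_apply.2 h', fun h' => e.eq_symm_apply.1 h'⟩
    rw [sum_eq_single (e.symm 1)]
    · have hX := (he _).2 rfl
      rw [if_pos hX]
      have h0 : quad B E C (e.symm 1) = 0 := by
        have h40 : (4 : ZMod p) * B ≠ 0 := by
          rw [show (4 : ZMod p) = 2 * 2 by norm_num]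
          exact mul_ne_zero (mul_ne_zero h2 h2) hB'
        refine (mul_eq_zero.1 ?_).resolve_left h40
        rw [h4f, hX]; ring
      simp [h0]
    · intro y _ hy
      rw [if_neg fun h' => hy ((he y).1 h')]
      simp
    · simp
  have hcirc : ∑ y : ZMod p,
      ((((circ p).filter fun u => u.1 - u.2 = 2 * (B : ZMod p) * y + E).card : ℝ) : ℂ) *
        ZMod.stdAddChar (a * quad B E C y) = circSum p l := by
    rw [circSum, ← sum_fiberwise (circ p) (fun u => e.symm (u.1 - u.2))]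
    refine sum_congr rfl fun y _ => ?_
    have hfil : (circ p).filter (fun u => u.1 - u.2 = 2 * (B : ZMod p) * y + E) =
        (circ p).filter (fun u => e.symm (u.1 - u.2) = y) :=
      filter_congr fun u _ => e.symm_apply_eq.symm
    rw [hfil, sum_congr rfl (g := fun _ => ZMod.stdAddChar (a * quad B E C y)) ?_, sum_const,
      nsmul_eq_mul]
    · push_cast; rfl
    · intro u hu
      obtain ⟨hu1, hu2⟩ := mem_filter.1 hu
      simp only [circ, mem_filter] at hu1
      have hX : u.1 - u.2 = 2 * (B : ZMod p) * y + E := e.symm_apply_eq.1 hu2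
      congr 1
      have := h4f y
      rw [← hX] at this
      have h22 : (2 : ZMod p) * (B : ZMod p) ≠ 0 := mul_ne_zero h2 hB'
      refine mul_left_cancel₀ (mul_ne_zero h2 h22) ?_
      have hlB : l * (2 * (B : ZMod p)) = -a := by
        rw [hl, mul_assoc, inv_mul_cancel₀ h22, mul_one]
      linear_combination (2 * u.1 * u.2) * hlB + (-a) * this + (-a) * hu1.2.1
  have hp0 : (p : ℂ) ≠ 0 := Nat.cast_ne_zero.2 hp.out.ne_zero
  have hKC : (((circ p).card : ℕ) : ℂ) ≠ 0 := by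
    rw [Nat.cast_ne_zero]; intro h0; rw [hK, h0, Nat.cast_zero] at hK0; exact lt_irrefl _ hK0
  rw [div_eq_iff hp0]
  simp only [dens, if_neg hB']
  push_cast
  rw [sum_congr rfl fun y _ => show _ = ((h : ℝ) : ℂ) * (((if 2 * (B : ZMod p) * y + E = 1 then (p : ℝ) else 0 : ℝ) : ℂ) *
      ZMod.stdAddChar (a * quad B E C y)) + (1 - (h : ℝ) : ℂ) * (p : ℂ) / ((circ p).card : ℂ) *
      (((((circ p).filter fun u => u.1 - u.2 = 2 * (B : ZMod p) * y + E).card : ℝ) : ℂ) *
        ZMod.stdAddChar (a * quad B E C y)) by simp only [h]; push_cast; ring,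
    sum_add_distrib, ← mul_sum, ← mul_sum, hroot, hcirc, hreal, hμ, hK]
  push_cast
  field_simp

/-- Prime powers. -/
lemma local_prime_pow {p e : ℕ} [hp : Fact p.Prime] (hg : Good B E C) (he : 1 ≤ e) {a : ℤ}
    (ha : ¬ (p : ℤ) ∣ a) :
    0 ≤ (full B E C (p ^ e) a).re ∧ (full B E C (p ^ e) a).im = 0 ∧
      lamt B E C (p ^ e) a ≤ 1 := by
  have hne : (1 : ℕ) ≠ p := hp.out.one_lt.ne
  rw [full, lamt, sfd_prime_pow hp.out he, sum_pair hne, sum_pair hne, Nat.cast_one, Real.one_rpow,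
    one_mul]
  have hD := comp_prime_eq (B := B) (E := E) (C := C) (p := p) he a
  have hN : (((p ^ e : ℕ) : ℕ) : ℂ) ≠ 0 := Nat.cast_ne_zero.2 (pow_ne_zero _ hp.out.ne_zero)
  by_cases hB : (p : ℤ) ∣ B
  · have hB' : (B : ZMod p) = 0 := (ZMod.intCast_zmod_eq_zero_iff_dvd _ _).2 hB
    have hG : comp B E C (p ^ e) 1 a = 0 := by
      rw [comp_one_eq]
      have hbij : Function.Bijective (quad B E C : ZMod (p ^ e) → ZMod (p ^ e)) :=
        Finite.injective_iff_bijective.1 (quad_injective hB hg.disc)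
      rw [Fintype.sum_bijective _ hbij _ (fun v => ZMod.stdAddChar ((a : ZMod (p ^ e)) * v))
        (fun _ => rfl)]
      simp only [mul_comm (a : ZMod (p ^ e))]
      rw [AddChar.sum_mulShift _ (ZMod.isPrimitive_stdAddChar _), if_neg, Nat.cast_zero, zero_div]
      intro h0
      have hu := isUnit_int_pow (e := e) ha
      rw [h0, isUnit_zero_iff] at hu
      haveI : Fact (1 < p ^ e) := ⟨Nat.one_lt_pow (by omega) hp.out.one_lt⟩
      exact zero_ne_one hu
    have hp' : comp B E C (p ^ e) p a = 0 := by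
      rw [comp]
      simp [uF_prime B E hp.out, locW, hp.out, dens, hB']
    simp [hG, hp']
  have hP := hg.big p hp.out hB
  obtain ⟨hh0, hh36, -, hinv, hlast⟩ := weight_bounds hP
  set h := (p : ℝ) ^ (-(1 / 8 : ℝ))
  have hp0 : (0 : ℝ) < p := by exact_mod_cast hp.out.pos
  have hp2 : p ≠ 2 := by omega
  set G := comp B E C (p ^ e) 1 a with hGdef
  have hGn : ‖G‖ ^ 2 * (p : ℝ) ^ e = 1 := by
    rw [hGdef, comp_one_eq, norm_div, div_pow, norm_sum_quad_sq _ (isUnit_int_pow ha),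
      Complex.norm_natCast]
    · push_cast; field_simp
    · have : IsUnit ((2 * B : ℤ) : ZMod (p ^ e)) := isUnit_int_pow fun hd => by
        rcases (Nat.prime_iff_prime_int.1 hp.out).dvd_or_dvd hd with h' | h'
        · have := Int.le_of_dvd (by norm_num) h'
          omega
        · exact hB h'
      simpa using this
  have hGh : ‖G‖ ≤ h := by
    refine (pow_le_pow_iff_left₀ (norm_nonneg _) hh0.le (by norm_num : 2 ≠ 0)).1 ?_
    refine le_trans ?_ hinv
    rw [le_div_iff₀ hp0]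
    refine le_trans ?_ hGn.le
    refine mul_le_mul_of_nonneg_left ?_ (sq_nonneg _)
    exact le_self_pow₀ (by exact_mod_cast hp.out.one_le) (by omega)
  obtain ⟨D, hD0, hD1, hDeq⟩ : ∃ D : ℝ, 0 ≤ D ∧ D ≤ 2 * h ∧
      G + comp B E C (p ^ e) p a = D := by
    rcases Nat.lt_or_ge e 2 with he2 | he2
    · obtain rfl : e = 1 := by omega
      have ha' : (a : ZMod p) ≠ 0 := by rwa [Ne, ZMod.intCast_zmod_eq_zero_iff_dvd]
      obtain ⟨D, h1, h2, h3⟩ := dens_sum_prime hg hB hP ha'
      refine ⟨D, h1, h2, ?_⟩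
      simp only [hGdef, pow_one]
      exact (comp_prime_one a).trans h3
    · refine ⟨0, le_rfl, by positivity, ?_⟩
      rw [hGdef, hD, sum_dens_eq_zero hg he2 hB ha, zero_div, Complex.ofReal_zero]
  refine ⟨by simpa [hDeq], by simp [hDeq], ?_⟩
  have hU : ‖comp B E C (p ^ e) p a‖ ≤ 4 * h := by
    rw [show comp B E C (p ^ e) p a = (D : ℂ) - G by rw [← hDeq]; ring]
    refine (norm_sub_le _ _).trans ?_
    rw [Complex.norm_real, Real.norm_of_nonneg hD0]
    linarith
  calc ‖G‖ + (p : ℝ) ^ (1 / 16 : ℝ) * ‖comp B E C (p ^ e) p a‖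
      ≤ h + (p : ℝ) ^ (1 / 16 : ℝ) * (4 * h) := by gcongr
    _ ≤ 1 := by linarith

/-- The complete series is real and nonnegative, and decays. -/
theorem local_all (hg : Good B E C) : ∀ q : ℕ, 0 < q → ∀ a : ℤ, IsCoprime a (q : ℤ) →
    0 ≤ (full B E C q a).re ∧ (full B E C q a).im = 0 ∧ lamt B E C q a ≤ 1 := by
  intro q
  induction q using Nat.recOnPosPrimePosCoprime with
  | zero => intro h; omega
  | one =>
    intro _ a _
    have : comp B E C 1 1 a = 1 := by
      rw [comp]; simp [uF_one, phase, ← Int.cast_mul, ee_int]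
    simp [full, lamt, sfd, this, filter_singleton]
  | prime_pow p n hp hn =>
    intro _ a ha
    have := Fact.mk hp
    refine local_prime_pow hg hn fun hd => ?_
    rw [Nat.cast_pow] at ha
    exact (Nat.prime_iff_prime_int.1 hp).not_isUnit
      ((ha.of_isCoprime_of_dvd_left hd).isUnit_of_dvd' dvd_rfl (dvd_pow_self _ hn.ne'))
  | coprime q r hq hr hqr ihq ihr =>
    intro _ a ha
    have : NeZero q := ⟨by omega⟩
    have : NeZero r := ⟨by omega⟩
    obtain ⟨u, v, huv⟩ := Nat.isCoprime_iff_coprime.2 hqr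
    have ha' : a = a * v * r + a * u * q := by linear_combination (-a) * huv
    rw [Nat.cast_mul] at ha
    have hv : IsCoprime (a * v) (q : ℤ) :=
      ha.of_mul_right_left.mul_left ⟨r, u, by linarith⟩
    have hu : IsCoprime (a * u) (r : ℤ) :=
      ha.of_mul_right_right.mul_left ⟨q, v, by linarith⟩
    obtain ⟨h1, h1', h1''⟩ := ihq (by omega) _ hv
    obtain ⟨h2, h2', h2''⟩ := ihr (by omega) _ hu
    rw [ha']
    have hmul : ∀ x ∈ sfd q, ∀ y ∈ sfd r,
        comp B E C (q * r) (x * y) (a * v * r + a * u * q) =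
          comp B E C q x (a * v) * comp B E C r y (a * u) := fun x hx y hy =>
      comp_mul B E C hqr (Nat.dvd_of_mem_divisors (mem_filter.1 hx).1)
        (Nat.dvd_of_mem_divisors (mem_filter.1 hy).1) _ _
    have hfull : full B E C (q * r) (a * v * r + a * u * q) =
        full B E C q (a * v) * full B E C r (a * u) := by
      rw [full, sum_sfd_mul (NeZero.ne q) (NeZero.ne r) hqr, full, full, sum_mul_sum]
      exact sum_congr rfl fun x hx => sum_congr rfl fun y hy => hmul x hx y hy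
    have hlam : lamt B E C (q * r) (a * v * r + a * u * q) =
        lamt B E C q (a * v) * lamt B E C r (a * u) := by
      rw [lamt, sum_sfd_mul (NeZero.ne q) (NeZero.ne r) hqr, lamt, lamt, sum_mul_sum]
      refine sum_congr rfl fun x hx => sum_congr rfl fun y hy => ?_
      rw [hmul x hx y hy, norm_mul, Nat.cast_mul,
        Real.mul_rpow (Nat.cast_nonneg _) (Nat.cast_nonneg _)]
      ring
    rw [hfull, hlam]
    refine ⟨?_, ?_, ?_⟩
    · rw [Complex.mul_re, h1', h2']; simpa using mul_nonneg h1 h2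
    · rw [Complex.mul_im, h1', h2']; ring
    · exact mul_le_one₀ h1'' (sum_nonneg fun d _ => by positivity) h2''

end Vale.Agent.P042.Quad
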