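import Vale.Agent.P042.Quad.Defs
import Vale.Agent.P042.Odd.Weyl

/-!
A large term of the test polynomial puts the frequency near a fraction with small denominator.
-/

open Finset

namespace Vale.Agent.P042.Quad

/-- A periodic coefficient leaves at most one exponential sum per residue. -/
lemma norm_periodic_sum_le {d : ℕ} (hd : 1 ≤ d) (u : ℕ → ℝ) (hu : Function.Periodic u d) {U S : ℝ}
    (hU : ∀ n, |u n| ≤ U) (z : ℕ → ℂ) (Y : ℕ)
    (hS : ∀ r < d, ∀ X ≤ Y, ‖∑ m ∈ range X, z (d * m + r)‖ ≤ S) :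
    ‖∑ n ∈ range Y, (u n : ℂ) * z n‖ ≤ d * (U * S) := by
  rw [← sum_fiberwise_of_maps_to (t := range d) (g := fun n => n % d)
    fun n _ => mem_range.2 (Nat.mod_lt n hd)]
  refine (norm_sum_le _ _).trans (le_trans (sum_le_card_nsmul _ _ (U * S) fun r hr => ?_)
    (by simp [nsmul_eq_mul]))
  have hr' := mem_range.1 hr
  have hU0 : 0 ≤ U := (abs_nonneg _).trans (hU r)
  have e : ∀ n ∈ (range Y).filter (fun n => n % d = r), (u n : ℂ) * z n = (u r : ℂ) * z n := by
    intro n hn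
    rw [← (mem_filter.1 hn).2, hu.map_mod_nat]
  rw [sum_congr rfl e, ← mul_sum, norm_mul, Complex.norm_real, Real.norm_eq_abs]
  refine mul_le_mul (hU r) ?_ (norm_nonneg _) hU0
  have he : ∑ n ∈ (range Y).filter (fun n => n % d = r), z n =
      ∑ m ∈ range ((Y + (d - 1 - r)) / d), z (d * m + r) := by
    refine sum_bij' (fun n _ => n / d) (fun m _ => d * m + r) ?_ ?_ ?_ ?_ ?_
    · intro n hn
      obtain ⟨h1, h2⟩ := mem_filter.1 hn
      have h3 := Nat.div_add_mod n d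
      rw [mem_range] at h1
      rw [mem_range, Nat.lt_iff_add_one_le, Nat.le_div_iff_mul_le hd, Nat.mul_comm,
        Nat.mul_add, Nat.mul_one]
      omega
    · intro m hm
      rw [mem_range, Nat.lt_iff_add_one_le, Nat.le_div_iff_mul_le hd, Nat.mul_comm,
        Nat.mul_add, Nat.mul_one] at hm
      refine mem_filter.2 ⟨mem_range.2 (by omega), ?_⟩
      rw [Nat.mul_add_mod, Nat.mod_eq_of_lt hr']
    · intro n hn
      obtain ⟨-, h2⟩ := mem_filter.1 hn
      have h3 := Nat.div_add_mod n d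
      omega
    · intro m hm
      rw [Nat.mul_add_div hd, Nat.div_eq_of_lt hr', Nat.add_zero]
    · intro n hn
      obtain ⟨-, h2⟩ := mem_filter.1 hn
      congr 1
      have h3 := Nat.div_add_mod n d
      omega
  rw [he]
  refine hS r hr' _ (Nat.le_of_lt_succ ((Nat.div_lt_iff_lt_mul hd).2 ?_))
  rw [Nat.succ_mul]
  have : Y ≤ Y * d := Nat.le_mul_of_pos_right Y hd
  omega

/-- The phase along a progression is quadratic with leading coefficient `θ B d ^ 2`. -/
lemma top_quad (B E C : ℤ) (θ : ℝ) (d r : ℕ) :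
    Odd.Top 2 (θ * B * (d : ℝ) ^ 2) fun m => θ * quadR B E C ((d * m + r : ℕ) : ℝ) := by
  have h := ((Odd.top_pow 2 2 le_rfl).smul (θ * B * (d : ℝ) ^ 2)).add
    (((Odd.top_pow 2 1 one_le_two).smul (θ * (2 * B * d * r + E * d))).add
      ((Odd.top_pow 2 0 (Nat.zero_le _)).smul (θ * quadR B E C r)))
  convert h using 1
  · norm_num
  · funext m
    simp only [quadR]
    push_cast
    ring

theorem term_minor : ∃ E₀ : ℕ, ∀ B E C : ℤ, Good B E C → ∃ K₀ : ℕ,
    ∀ (M d K : ℕ) (θ : ℝ), 1 ≤ M → 1 ≤ d → 1 ≤ K →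
      (M : ℝ) ^ 4 / K ≤ |term B E C M d θ| →
      ∃ q : ℕ, 1 ≤ q ∧ q ≤ K₀ * (d * K) ^ E₀ ∧ ∃ a : ℤ,
        |θ - (a : ℝ) / q| ≤ ((K₀ : ℝ) * ((d : ℝ) * K) ^ E₀) / (M : ℝ) ^ 2 := by
  obtain ⟨Cw, Ew, hW⟩ := Odd.weyl_top 2 one_le_two
  refine ⟨3 * Ew + 2, fun B E C hg => ?_⟩
  set S := B.natAbs + E.natAbs + C.natAbs with hS
  refine ⟨B.natAbs * (Cw * (12 * S ^ 2) ^ Ew), fun M d K θ hM hd hK hbig => ?_⟩
  have hB : (1 : ℝ) ≤ B := by exact_mod_cast hg.posB
  have hE : (1 : ℝ) ≤ E := by exact_mod_cast hg.posE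
  have hC : (1 : ℝ) ≤ C := by exact_mod_cast hg.posC
  have hSr : (S : ℝ) = B + E + C := by
    rw [hS]; push_cast
    simp only [Nat.cast_natAbs, Int.cast_abs]
    rw [abs_of_pos (by linarith : (0 : ℝ) < B), abs_of_pos (by linarith : (0 : ℝ) < E),
      abs_of_pos (by linarith : (0 : ℝ) < C)]
  have hMr : (1 : ℝ) ≤ M := by exact_mod_cast hM
  have hdr : (1 : ℝ) ≤ d := by exact_mod_cast hd
  have hKr : (1 : ℝ) ≤ K := by exact_mod_cast hK
  set z : ℕ → ℂ := fun n => Odd.circ (θ * quadR B E C n) with hz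
  -- a long partial sum along one residue
  obtain ⟨r, hr, X, hX, hlarge⟩ : ∃ r < d, ∃ X ≤ M,
      (M : ℝ) / ((12 * S ^ 2 * (K * d ^ 3) : ℕ) : ℝ) ≤ ‖∑ m ∈ range X, z (d * m + r)‖ := by
    by_contra hcon
    push Not at hcon
    obtain ⟨n, hn⟩ : ∃ n, M = n + 1 := ⟨M - 1, by omega⟩
    obtain ⟨p, hp, hmax⟩ := exists_max_image (range d ×ˢ range (M + 1))
      (fun p => ‖∑ m ∈ range p.2, z (d * m + p.1)‖)
      ⟨(0, 0), mem_product.2 ⟨mem_range.2 hd, mem_range.2 (Nat.succ_pos _)⟩⟩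
    set σ := ‖∑ m ∈ range p.2, z (d * m + p.1)‖ with hσ
    rw [mem_product, mem_range, mem_range] at hp
    have hσlt := hcon p.1 hp.1 p.2 (Nat.lt_succ_iff.1 hp.2)
    rw [← hσ] at hσlt
    set P := (d : ℝ) * ((d : ℝ) ^ 2 * σ) with hP
    have hpart : ∀ Y ≤ n + 1, ‖∑ i ∈ range Y, (uF B E d i : ℂ) * z i‖ ≤ P := fun Y hY =>
      norm_periodic_sum_le hd _ (uF_periodic B E dvd_rfl)
        (fun i => abs_uF_le hg (by omega) i) z Y fun r' hr' X' hX' =>
          hmax (r', X') (mem_product.2 ⟨mem_range.2 hr', mem_range.2 (by omega)⟩)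
    have hF0 : 0 ≤ quadR B E C M := by unfold quadR; positivity
    have habel : ∀ u : ℕ → ℝ, 0 ≤ u 0 → Monotone u → u n ≤ 3 * S ^ 2 * (M : ℝ) ^ 3 →
        |∑ i ∈ range (n + 1), u i * (uF B E d i * (z i).re)| ≤ 6 * S ^ 2 * (M : ℝ) ^ 3 * P := by
      intro u h0 hmono hu
      have e : ∑ i ∈ range (n + 1), u i * (uF B E d i * (z i).re) =
          (∑ i ∈ range (n + 1), (u i : ℂ) * ((uF B E d i : ℂ) * z i)).re := by
        simp [Complex.re_sum]
      rw [e]
      refine (Complex.abs_re_le_norm _).trans ((Odd.norm_abel u _ P h0 hmono n hpart).trans ?_)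
      have : 0 ≤ P := (norm_nonneg _).trans (hpart 0 (Nat.zero_le _))
      nlinarith
    have hlin : ∀ i j : ℕ, i ≤ j → 2 * (B : ℝ) * i + E ≤ 2 * B * j + E := fun i j hij => by
      have : (i : ℝ) ≤ j := by exact_mod_cast hij
      nlinarith
    have hquad : ∀ i j : ℕ, i ≤ j → quadR B E C i ≤ quadR B E C j := fun i j hij => by
      have : (i : ℝ) ≤ j := by exact_mod_cast hij
      have : (0 : ℝ) ≤ i := Nat.cast_nonneg i
      unfold quadR
      gcongr
    have hnM : (n : ℝ) ≤ M := by exact_mod_cast (show n ≤ M by omega)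
    have hl3 : 2 * (B : ℝ) * n + E ≤ 3 * S * M := by
      rw [hSr]
      linarith [mul_le_mul_of_nonneg_left hnM (show (0 : ℝ) ≤ 2 * B by linarith),
        mul_le_mul_of_nonneg_left hMr (show (0 : ℝ) ≤ E by linarith),
        mul_nonneg (show (0 : ℝ) ≤ C by linarith) (show (0 : ℝ) ≤ M by linarith),
        mul_nonneg (show (0 : ℝ) ≤ E by linarith) (show (0 : ℝ) ≤ M by linarith),
        mul_nonneg (show (0 : ℝ) ≤ B by linarith) (show (0 : ℝ) ≤ M by linarith)]
    have hFle : quadR B E C M ≤ S * (M : ℝ) ^ 2 := by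
      rw [hSr, quadR]
      linarith [mul_le_mul_of_nonneg_left (le_self_pow₀ hMr two_ne_zero) (show (0 : ℝ) ≤ E by linarith),
        mul_le_mul_of_nonneg_left (one_le_pow₀ (n := 2) hMr) (show (0 : ℝ) ≤ C by linarith)]
    have h1 := habel (fun i => quadR B E C M * (2 * B * i + E)) (by simp; positivity)
      (fun i j hij => mul_le_mul_of_nonneg_left (hlin i j hij) hF0) (by
        calc quadR B E C M * (2 * B * n + E) ≤ S * (M : ℝ) ^ 2 * (3 * S * M) :=
              mul_le_mul hFle hl3 (by positivity) (by positivity)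
          _ = _ := by ring)
    have h2 := habel (fun i => (2 * B * i + E) * quadR B E C i) (by simp [quadR]; positivity)
      (fun i j hij => mul_le_mul (hlin i j hij) (hquad i j hij)
        (by unfold quadR; positivity) (by positivity)) (by
        calc (2 * (B : ℝ) * n + E) * quadR B E C n ≤ 3 * S * M * (S * (M : ℝ) ^ 2) :=
              mul_le_mul hl3 ((hquad n M (by omega)).trans hFle) (by unfold quadR; positivity)
                (by positivity)
          _ = _ := by ring)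
    have hterm : term B E C M d θ =
        (∑ i ∈ range (n + 1), quadR B E C M * (2 * B * i + E) * (uF B E d i * (z i).re)) -
          ∑ i ∈ range (n + 1), (2 * B * i + E) * quadR B E C i * (uF B E d i * (z i).re) := by
      rw [← sum_sub_distrib, term]
      conv_lhs => arg 1; rw [hn]
      refine sum_congr rfl fun i _ => ?_
      simp only [hz, Odd.circ_re, wQ, ← mul_assoc]
      ring
    rw [hterm] at hbig
    have h3 := hbig.trans ((abs_sub _ _).trans (add_le_add h1 h2))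
    have hσ0 : 0 ≤ σ := norm_nonneg _
    have hKd : (0 : ℝ) < ((12 * S ^ 2 * (K * d ^ 3) : ℕ) : ℝ) := by
      push_cast; rw [hSr]; positivity
    rw [lt_div_iff₀ hKd] at hσlt
    push_cast at hσlt
    rw [div_le_iff₀ (by linarith), hP] at h3
    have h4 := mul_lt_mul_of_pos_left hσlt (show (0 : ℝ) < (M : ℝ) ^ 3 by positivity)
    nlinarith
  obtain ⟨q, hq1, hqle, a, ha⟩ := hW (12 * S ^ 2 * (K * d ^ 3)) M X
    (fun m => θ * quadR B E C ((d * m + r : ℕ) : ℝ)) (θ * B * (d : ℝ) ^ 2)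
    (Nat.one_le_iff_ne_zero.2 (mul_ne_zero (by
      have : 0 < B.natAbs := Int.natAbs_pos.2 hg.posB.ne'
      positivity) (by positivity))) hM hX (top_quad B E C θ d r) hlarge
  have hBn : 1 ≤ B.natAbs := Int.natAbs_pos.2 hg.posB.ne'
  have hpow : Cw * (12 * S ^ 2 * (K * d ^ 3)) ^ Ew ≤
      Cw * (12 * S ^ 2) ^ Ew * (d * K) ^ (3 * Ew) := by
    rw [mul_pow, mul_assoc, pow_mul]
    gcongr
    calc K * d ^ 3 ≤ K ^ 3 * d ^ 3 := Nat.mul_le_mul_right _ (Nat.le_self_pow (by norm_num) K)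
      _ = _ := by ring
  refine ⟨q * (B.natAbs * d ^ 2), Nat.mul_pos hq1 (Nat.mul_pos hBn (pow_pos hd 2)), ?_, a, ?_⟩
  · calc q * (B.natAbs * d ^ 2)
        ≤ (Cw * (12 * S ^ 2) ^ Ew * (d * K) ^ (3 * Ew)) * (B.natAbs * (d * K) ^ 2) :=
          Nat.mul_le_mul (hqle.trans hpow)
            (Nat.mul_le_mul_left _ (Nat.pow_le_pow_left (Nat.le_mul_of_pos_right d hK) 2))
      _ = _ := by ring
  · have hBc : ((B.natAbs : ℕ) : ℝ) = B := by
      rw [Nat.cast_natAbs, abs_of_pos hg.posB]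
    have hqr : (1 : ℝ) ≤ q := by exact_mod_cast hq1
    have hQ : (1 : ℝ) ≤ q * (B * (d : ℝ) ^ 2) := by
      nlinarith [mul_le_mul hqr (mul_le_mul hB (one_le_pow₀ (n := 2) hdr) zero_le_one (by linarith))
        (by norm_num) (by linarith)]
    push_cast [hBc]
    rw [show θ - (a : ℝ) / (q * (B * (d : ℝ) ^ 2)) =
      ((q : ℝ) * (θ * B * (d : ℝ) ^ 2) - a) / (q * (B * (d : ℝ) ^ 2)) by field_simp,
      abs_div, abs_of_pos (by linarith : (0 : ℝ) < q * (B * (d : ℝ) ^ 2))]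
    refine (div_le_self (abs_nonneg _) hQ).trans (ha.trans ?_)
    refine div_le_div_of_nonneg_right ?_ (by positivity)
    calc (Cw : ℝ) * ((12 * S ^ 2 * (K * d ^ 3) : ℕ) : ℝ) ^ Ew
        = ((Cw * (12 * S ^ 2 * (K * d ^ 3)) ^ Ew : ℕ) : ℝ) := by push_cast; rfl
      _ ≤ ((Cw * (12 * S ^ 2) ^ Ew * (d * K) ^ (3 * Ew) : ℕ) : ℝ) := Nat.cast_le.2 hpow
      _ ≤ _ := by
          push_cast [hBc]
          have hX : (0 : ℝ) ≤ (Cw : ℝ) * (12 * (S : ℝ) ^ 2) ^ Ew := by positivity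
          calc (Cw : ℝ) * (12 * (S : ℝ) ^ 2) ^ Ew * ((d : ℝ) * K) ^ (3 * Ew)
              ≤ (B : ℝ) * ((Cw : ℝ) * (12 * (S : ℝ) ^ 2) ^ Ew) * ((d : ℝ) * K) ^ (3 * Ew + 2) :=
                mul_le_mul (le_mul_of_one_le_left hX hB)
                  (pow_le_pow_right₀ (by nlinarith) (Nat.le_add_right _ _)) (by positivity)
                  (mul_nonneg (by linarith) hX)
            _ = _ := by ring

end Vale.Agent.P042.Quad
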