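import Vale.Agent.P042.Quad.Defs

/-!
Every intersective quadratic with nonzero discriminant takes, along an arithmetic progression, a
constant multiple of the values of a normalised quadratic.
-/

open Finset

namespace Vale.Agent.P042.Quad

open scoped NumberTheorySymbols

/-- An integer that is not a square is a nonresidue modulo some prime. -/
lemma exists_nonresidue_prime {D : ℤ} (hD : ¬ IsSquare D) :
    ∃ p : ℕ, p.Prime ∧ ¬ IsSquare (D : ZMod p) := by
  have hD0 : D ≠ 0 := fun h => hD (h ▸ IsSquare.zero)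
  obtain ⟨a, s, hab, hsq⟩ := Nat.sq_mul_squarefree D.natAbs
  have ha0 : a ≠ 0 := hsq.ne_zero
  obtain ⟨σ, hσ, hDe⟩ : ∃ σ : ℤ, (σ = 1 ∨ σ = -1) ∧ D = σ * (a : ℤ) * (s : ℤ) ^ 2 := by
    have h : (D.natAbs : ℤ) = (s : ℤ) ^ 2 * a := by rw [← hab]; push_cast; ring
    rcases Int.natAbs_eq D with e | e
    · exact ⟨1, Or.inl rfl, by rw [e, h]; ring⟩
    · exact ⟨-1, Or.inr rfl, by rw [e, h]; ring⟩
  -- it is enough to find a large prime where `σ a` has symbol `-1`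
  suffices ∃ p : ℕ, p.Prime ∧ D.natAbs < p ∧ J(σ * (a : ℤ) | p) = -1 by
    obtain ⟨p, hp, hpD, hJ⟩ := this
    refine ⟨p, hp, ZMod.nonsquare_of_jacobiSym_eq_neg_one ?_⟩
    have hs : (s : ℤ).gcd p = 1 := by
      rw [Int.gcd_natCast_natCast]
      refine Nat.Coprime.symm ((hp.coprime_iff_not_dvd).2 fun hd => ?_)
      have hs0 : s ≠ 0 := by rintro rfl; apply hD0; rw [hDe]; simp
      have h1 := Nat.le_of_dvd (Nat.pos_of_ne_zero hs0) hd
      have h2 : s ≤ D.natAbs := Nat.le_of_dvd (Int.natAbs_pos.2 hD0)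
        (hab ▸ dvd_mul_of_dvd_left (dvd_pow_self s two_ne_zero) a)
      omega
    rw [hDe, jacobiSym.mul_left, hJ, jacobiSym.sq_one' hs, mul_one]
  by_cases hq : ∃ q : ℕ, q.Prime ∧ q ≠ 2 ∧ q ∣ a
  · obtain ⟨q, hq, hq2, v, rfl⟩ := hq
    have := Fact.mk hq
    obtain ⟨g, hg⟩ := FiniteField.exists_nonsquare (F := ZMod q) (by rw [ZMod.ringChar_zmod_n]; exact hq2)
    have hv0 : v ≠ 0 := by rintro rfl; simp at ha0
    have hcv : Nat.Coprime (4 * v) q := by
      refine Nat.Coprime.mul_left ?_ (Nat.coprime_of_squarefree_mul hsq).symm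
      refine (Nat.Coprime.symm ((hq.coprime_iff_not_dvd).2 fun h => ?_))
      have h4 : q ∣ 2 ^ 2 := by norm_num; exact h
      exact hq2 ((Nat.prime_dvd_prime_iff_eq hq Nat.prime_two).1 (hq.dvd_of_dvd_pow h4))
    obtain ⟨c, hc1, hc2⟩ := Nat.chineseRemainder hcv 1 g.val
    have hg0 : g ≠ 0 := fun h => hg (h ▸ IsSquare.zero)
    have hgq : g.val.Coprime q := by
      refine Nat.Coprime.symm ((hq.coprime_iff_not_dvd).2 fun h => hg0 ?_)
      rwa [← ZMod.natCast_eq_zero_iff, ZMod.natCast_zmod_val] at h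
    have hunit : IsUnit ((c : ℕ) : ZMod (4 * v * q)) := by
      rw [ZMod.isUnit_iff_coprime]
      refine Nat.Coprime.mul_right ?_ ?_
      · rw [Nat.Coprime, hc1.gcd_eq, Nat.gcd_one_left]
      · rw [Nat.Coprime, hc2.gcd_eq]; exact hgq
    have : NeZero (4 * v * q) := ⟨mul_ne_zero (mul_ne_zero (by norm_num) hv0) hq.ne_zero⟩
    obtain ⟨p, hpD, hp, hpc⟩ := Nat.forall_exists_prime_gt_and_eq_mod hunit (max D.natAbs 2)
    rw [ZMod.natCast_eq_natCast_iff] at hpc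
    have hp1 : p ≡ 1 [MOD 4 * v] := (hpc.of_mul_right q).trans hc1
    have hp4 : p % 4 = 1 := hp1.of_mul_right v
    have hodd : Odd p := hp.odd_of_ne_two (by omega)
    refine ⟨p, hp, by omega, ?_⟩
    have hσv : J(σ * (v : ℤ) | p) = 1 := by
      rw [jacobiSym.mod_right _ hodd]
      have e : (σ * (v : ℤ)).natAbs = v := by rcases hσ with rfl | rfl <;> simp
      rw [e, show p % (4 * v) = 1 % (4 * v) from hp1, Nat.mod_eq_of_lt (by omega),
        jacobiSym.one_right]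
    have hqp : J((q : ℤ) | p) = -1 := by
      rw [← jacobiSym.quadratic_reciprocity_one_mod_four hp4 (hq.odd_of_ne_two hq2),
        ← jacobiSym.legendreSym.to_jacobiSym, legendreSym.eq_neg_one_iff]
      have hpq : ((p : ℕ) : ZMod q) = g := by
        rw [← ZMod.natCast_zmod_val g, ZMod.natCast_eq_natCast_iff]
        exact (hpc.of_mul_left (4 * v)).trans hc2
      push_cast
      rw [hpq]
      exact hg
    rw [show σ * ((q * v : ℕ) : ℤ) = q * (σ * v) by push_cast; ring, jacobiSym.mul_left, hqp, hσv]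
    norm_num
  · push_neg at hq
    have ha12 : a = 1 ∨ a = 2 := by
      by_cases h1 : a = 1
      · exact Or.inl h1
      obtain ⟨q, hq', hqa⟩ := Nat.exists_prime_and_dvd h1
      have h2a : 2 ∣ a := by
        by_contra h
        exact hq q hq' (fun e => h (e ▸ hqa)) hqa
      obtain ⟨w, rfl⟩ := h2a
      by_cases hw : w = 1
      · subst hw; exact Or.inr rfl
      obtain ⟨r, hr, hrw⟩ := Nat.exists_prime_and_dvd hw
      exfalso
      by_cases hr2 : r = 2
      · subst hr2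
        have := hsq 2 (Nat.mul_dvd_mul_left 2 hrw)
        simp at this
      · exact hq r hr hr2 (dvd_mul_of_dvd_right hrw 2)
    obtain ⟨c, hc, hJc⟩ : ∃ c : ℕ, (c = 3 ∨ c = 5) ∧
        J(σ * (a : ℤ) | c % (4 * (σ * (a : ℤ)).natAbs)) = -1 := by
      rcases hσ with rfl | rfl <;> rcases ha12 with rfl | rfl
      · exact absurd ⟨(s : ℤ), by rw [hDe]; push_cast; ring⟩ hD
      · exact ⟨3, Or.inl rfl, by norm_num⟩
      · exact ⟨3, Or.inl rfl, by norm_num⟩
      · exact ⟨5, Or.inr rfl, by norm_num⟩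
    have hunit : IsUnit ((c : ℕ) : ZMod 8) := by
      rcases hc with rfl | rfl <;> decide
    obtain ⟨p, hpD, hp, hpc⟩ := Nat.forall_exists_prime_gt_and_eq_mod hunit (max D.natAbs 2)
    rw [ZMod.natCast_eq_natCast_iff] at hpc
    refine ⟨p, hp, by omega, ?_⟩
    rw [jacobiSym.mod_right _ (hp.odd_of_ne_two (by omega))]
    have hdvd : 4 * (σ * (a : ℤ)).natAbs ∣ 8 := by
      rcases hσ with rfl | rfl <;> rcases ha12 with rfl | rfl <;> norm_num
    rw [show p % (4 * (σ * (a : ℤ)).natAbs) = c % (4 * (σ * (a : ℤ)).natAbs) from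
      hpc.of_dvd hdvd]
    exact hJc

/-- The discriminant of an intersective quadratic is a square. -/
theorem isSquare_discr {a b c : ℤ}
    (hroot : ∀ q : ℕ, 1 ≤ q → ∃ t : ℤ, (q : ℤ) ∣ a * t ^ 2 + b * t + c) :
    IsSquare (b ^ 2 - 4 * a * c) := by
  by_contra h
  obtain ⟨p, hp, hns⟩ := exists_nonresidue_prime h
  obtain ⟨t, ht⟩ := hroot p hp.one_le
  rw [← ZMod.intCast_zmod_eq_zero_iff_dvd] at ht
  refine hns ⟨((2 * a * t + b : ℤ) : ZMod p), ?_⟩
  push_cast at ht ⊢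
  linear_combination (-4 * (a : ZMod p)) * ht

lemma exists_dvd_multiple (k : ℕ) : ∃ P : ℕ, 0 < P ∧ ∀ p : ℕ, 0 < p → p < k → p ∣ P :=
  ⟨k.factorial, k.factorial_pos, fun _ h0 h => Nat.dvd_factorial h0 h.le⟩

theorem exists_normal_form {a b c : ℤ} (ha : 0 < a) (hD : b ^ 2 - 4 * a * c ≠ 0)
    (hroot : ∀ q : ℕ, 1 ≤ q → ∃ t : ℤ, (q : ℤ) ∣ a * t ^ 2 + b * t + c) :
    ∃ L B E C : ℤ, 0 < L ∧ Good B E C ∧ ∀ y : ℕ, ∃ n : ℕ, 0 < n ∧
      a * (n : ℤ) ^ 2 + b * n + c = L * quad B E C (y : ℤ) := by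
  obtain ⟨r₀, hr₀⟩ := isSquare_discr hroot
  obtain ⟨r, hr, hr2⟩ : ∃ r : ℤ, 0 < r ∧ b ^ 2 - 4 * a * c = r ^ 2 := by
    refine ⟨|r₀|, abs_pos.2 ?_, by rw [hr₀, sq_abs]; ring⟩
    rintro rfl
    exact hD (by rw [hr₀]; ring)
  obtain ⟨P, hP, hPp⟩ := exists_dvd_multiple (10 ^ 13)
  obtain ⟨R, hR0, hPR⟩ : ∃ R : ℤ, 0 < R ∧ (P : ℤ) ∣ R :=
    ⟨(P : ℤ), by exact_mod_cast hP, dvd_rfl⟩
  obtain ⟨L, hL⟩ : ∃ L : ℤ, L = R * r ^ 2 := ⟨_, rfl⟩
  have hL0 : 0 < L := by rw [hL]; positivity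
  obtain ⟨t, ht⟩ := hroot L.toNat (by omega)
  rw [Int.toNat_of_nonneg hL0.le] at ht
  obtain ⟨z, hz⟩ : ∃ z : ℤ, z = t + L * (|t| + |b| + |c| + 1) := ⟨_, rfl⟩
  have hz1 : |b| + |c| + 1 ≤ z := by
    have h0 : 0 ≤ |t| + |b| + |c| + 1 := by positivity
    have := mul_le_mul_of_nonneg_right (show (1 : ℤ) ≤ L by omega) h0
    have := neg_abs_le t
    linarith
  have hb := abs_le.1 (le_refl |b|)
  have hc := abs_le.1 (le_refl |c|)
  have hb0 := abs_nonneg b
  have hc0 := abs_nonneg c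
  have hhz : 0 < a * z ^ 2 + b * z + c := by
    have h1 : z ^ 2 ≤ a * z ^ 2 := le_mul_of_one_le_left (sq_nonneg z) (by omega)
    have h2 : -(|b| * z) ≤ b * z := by nlinarith
    have h3 : z * 1 ≤ z * (z - |b|) := mul_le_mul_of_nonneg_left (by linarith) (by linarith)
    nlinarith
  have hv : 0 < 2 * a * z + b := by nlinarith
  have hdvd : L ∣ a * z ^ 2 + b * z + c := by
    have e : a * z ^ 2 + b * z + c = a * t ^ 2 + b * t + c +
        L * ((|t| + |b| + |c| + 1) * (a * (2 * t + L * (|t| + |b| + |c| + 1)) + b)) := by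
      rw [hz]; ring
    rw [e]
    exact dvd_add ht (dvd_mul_right _ _)
  obtain ⟨C, hC⟩ := hdvd
  have hCpos : 0 < C := by
    rw [hC] at hhz
    exact (mul_pos_iff_of_pos_left hL0).1 hhz
  have hrv : r ∣ 2 * a * z + b := by
    refine (Int.pow_dvd_pow_iff two_ne_zero).1 ⟨1 + 4 * a * R * C, ?_⟩
    linear_combination hr2 + 4 * a * hC + 4 * a * C * hL
  obtain ⟨E, hE⟩ := hrv
  have hEpos : 0 < E := by
    rw [hE] at hv
    exact (mul_pos_iff_of_pos_left hr).1 hv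
  refine ⟨L, a * R, E, C, hL0, ⟨mul_pos ha hR0, hEpos, hCpos, ?_, ?_⟩, fun y => ?_⟩
  · refine mul_left_cancel₀ (pow_ne_zero 2 hr.ne') ?_
    linear_combination -(2 * a * z + b + r * E) * hE + hr2 + 4 * a * hC + 4 * a * C * hL
  · intro p hp hpd
    by_contra hlt
    refine hpd (dvd_mul_of_dvd_right ((Int.natCast_dvd_natCast.2 ?_).trans hPR) a)
    exact hPp p hp.pos (not_le.1 hlt)
  · have hn : 0 < z + R * r * y := by
      have : 0 ≤ R * r * (y : ℤ) := by positivity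
      linarith
    refine ⟨(z + R * r * y).toNat, by omega, ?_⟩
    rw [Int.toNat_of_nonneg hn.le]
    simp only [quad, Int.cast_id]
    linear_combination hC + R * r * (y : ℤ) * hE - (E * y + a * R * y ^ 2) * hL

end Vale.Agent.P042.Quad
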