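import Vale.Agent.P042.Quad.Local
import Vale.Agent.P042.Quad.Major
import Vale.Agent.P042.Quad.Minor
import Vale.Agent.P042.Quad.Reduce
import Vale.Agent.P042.Odd.Main

/-!
A power saving for sets without differences in the values of an intersective quadratic of nonzero
discriminant.
-/

open Finset

namespace Vale.Agent.P042.Quad

lemma sum_range_periodic_mul {M : Type*} [AddCommMonoid M] (F : ℕ → M) (q : ℕ)
    (hF : Function.Periodic F q) : ∀ m : ℕ,
    ∑ y ∈ range (m * q), F y = m • ∑ y ∈ range q, F y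
  | 0 => by simp
  | m + 1 => by
    rw [Nat.succ_mul, sum_range_add, sum_range_periodic_mul F q hF m, succ_nsmul]
    congr 1
    refine sum_congr rfl fun y _ => ?_
    rw [add_comm (m * q) y]
    exact_mod_cast (hF.nat_mul m) y

lemma sum_locW {B E C : ℤ} (hg : Good B E C) {p : ℕ} (hp : p.Prime) :
    ∑ y ∈ range p, (locW B E p y : ℂ) = 0 := by
  have := Fact.mk hp
  have h : ∑ y ∈ range p, locW B E p y = ∑ y : ZMod p, (dens B E p y - 1) := by
    rw [← Odd.sum_range_zmod]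
    exact sum_congr rfl fun y _ => by rw [locW, dif_pos hp]
  rw [← Complex.ofReal_sum, h, sum_sub_distrib, sum_const, card_univ, ZMod.card, nsmul_one,
    Complex.ofReal_eq_zero, sub_eq_zero]
  by_cases hB : (B : ZMod p) = 0
  · simp [dens, hB]
  have hp13 := hg.big p hp fun hd => hB ((ZMod.intCast_zmod_eq_zero_iff_dvd _ _).2 hd)
  have h2 : (2 : ZMod p) ≠ 0 := by
    intro h2
    have : ((2 : ℕ) : ZMod p) = 0 := by exact_mod_cast h2
    rw [ZMod.natCast_eq_zero_iff] at this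
    have := Nat.le_of_dvd (by omega) this
    omega
  set e := Equiv.ofBijective (fun y : ZMod p => 2 * (B : ZMod p) * y + E)
    (Finite.injective_iff_bijective.1 fun x y hxy =>
      mul_left_cancel₀ (mul_ne_zero h2 hB) (add_right_cancel hxy))
  have hroot : ∑ y : ZMod p, (if 2 * (B : ZMod p) * y + E = 1 then (p : ℝ) else 0) = p := by
    refine (Fintype.sum_equiv e _ (fun X => if X = 1 then (p : ℝ) else 0) fun y => by simp only [e, Equiv.ofBijective_apply]).trans ?_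
    simp
  have hcard : ∑ y : ZMod p,
      (((circ p).filter fun u => u.1 - u.2 = 2 * (B : ZMod p) * y + E).card : ℝ) = (circ p).card := by
    refine (Fintype.sum_equiv e _ (fun X => (((circ p).filter fun u => u.1 - u.2 = X).card : ℝ))
      fun y => by simp only [e, Equiv.ofBijective_apply]).trans ?_
    rw [← Nat.cast_sum, ← card_eq_sum_card_fiberwise (f := fun u : ZMod p × ZMod p => u.1 - u.2)
      (t := univ) (fun u _ => mem_univ _)]
  have hK : ((circ p).card : ℝ) ≠ 0 := by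
    have := card_circ_ge (p := p) (by omega)
    exact_mod_cast (show (circ p).card ≠ 0 by omega)
  simp only [dens, if_neg hB]
  rw [sum_add_distrib, ← mul_sum, ← mul_sum, hroot, ← sum_div, ← mul_sum, hcard]
  field_simp
  ring

lemma avg_of_dvd {B E C : ℤ} {q d : ℕ} [NeZero q] (hd0 : d ≠ 0) (h : d ∣ q) (a : ℤ) :
    avg B E C q d a = comp B E C q d a := by
  rw [avg, comp, sum_range_periodic_mul _ q ?_ d, nsmul_eq_mul, Nat.cast_mul,
    mul_div_mul_left _ _ (Nat.cast_ne_zero.2 hd0)]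
  intro y
  simp only [uF_periodic B E h y, phase_periodic B E C q a y]

lemma avg_of_not_dvd {B E C : ℤ} (hg : Good B E C) {q d : ℕ} [NeZero q] (hs : Squarefree d)
    (h : ¬ d ∣ q) (a : ℤ) : avg B E C q d a = 0 := by
  obtain ⟨p, hp, hpd, hpq⟩ : ∃ p, p.Prime ∧ p ∣ d ∧ ¬ p ∣ q := by
    by_contra hc
    push Not at hc
    refine h ?_
    rw [← Nat.prod_primeFactors_of_squarefree hs]
    exact Finset.prod_primes_dvd q
      (fun p hp => (Nat.prime_of_mem_primeFactors hp).prime)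
      fun p hp => hc p (Nat.prime_of_mem_primeFactors hp) (Nat.dvd_of_mem_primeFactors hp)
  obtain ⟨d', rfl⟩ := hpd
  have hd' : p.Coprime d' := (Nat.squarefree_mul_iff.1 hs).1
  have hd'0 : d' ≠ 0 := fun h0 => by simp [h0] at hs
  have hcop : p.Coprime (d' * q) := hd'.mul_right ((hp.coprime_iff_not_dvd).2 hpq)
  rw [avg, mul_assoc, sum_congr rfl fun y _ => show _ =
      (locW B E p y : ℂ) * ((uF B E d' y : ℂ) * phase B E C q a y) by
    rw [uF_mul B E hd', uF_prime B E hp]; push_cast; ring,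
    sum_mul_periodic hcop hp.ne_zero (mul_ne_zero hd'0 (NeZero.ne q)), sum_locW hg hp, zero_mul,
    zero_div]
  · intro y; simp only [locW_periodic B E dvd_rfl y]
  · intro y
    simp only [uF_periodic B E (dvd_mul_right d' q) y]
    congr 1
    exact_mod_cast (phase_periodic B E C q a).nat_mul d' y

/-- The squarefree moduli of the test polynomial. -/
def mods (D : ℕ) : Finset ℕ := (Icc 1 D).filter Squarefree

/-- The test polynomial. -/
noncomputable def test (B E C : ℤ) (M D : ℕ) (θ : ℝ) : ℝ := ∑ d ∈ mods D, term B E C M d θ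

lemma card_mods_le (D : ℕ) : ((mods D).card : ℝ) ≤ D := by
  exact_mod_cast (card_filter_le _ _).trans (by simp)

lemma one_div_le_eta {D : ℕ} (hD : 1 ≤ D) : 1 / (D : ℝ) ≤ (D : ℝ) ^ (-(1 / 16 : ℝ)) := by
  rw [one_div, ← Real.rpow_neg_one]
  exact Real.rpow_le_rpow_of_exponent_le (by exact_mod_cast hD) (by norm_num)

/-- The truncated series is close to a real number in `[0, 1]`. -/
lemma trunc_series {B E C : ℤ} (hg : Good B E C) {D q : ℕ} [NeZero q] (hD : 1 ≤ D) {a : ℤ}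
    (ha : IsCoprime a (q : ℤ)) :
    ∃ F : ℝ, 0 ≤ F ∧ F ≤ 1 ∧ ∃ R : ℂ, ‖R‖ ≤ (D : ℝ) ^ (-(1 / 16 : ℝ)) ∧
      ∑ d ∈ mods D, avg B E C q d a = (F : ℂ) - R := by
  obtain ⟨hre, him, hlam⟩ := local_all hg q (NeZero.pos q) a ha
  have h1 : ∑ d ∈ mods D, avg B E C q d a =
      ∑ d ∈ (sfd q).filter (· ≤ D), comp B E C q d a := by
    rw [← sum_filter_of_ne (p := fun d => d ∣ q) (s := mods D) fun d hd hne => by
      by_contra hc
      exact hne (avg_of_not_dvd hg (mem_filter.1 hd).2 hc a)]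
    refine sum_congr ?_ fun d hd => ?_
    · ext d
      simp only [mods, sfd, mem_filter, mem_Icc, Nat.mem_divisors]
      exact ⟨fun ⟨⟨⟨_, h2⟩, h3⟩, h4⟩ => ⟨⟨⟨h4, NeZero.ne q⟩, h3⟩, h2⟩,
        fun ⟨⟨⟨h4, _⟩, h3⟩, h2⟩ => ⟨⟨⟨Nat.pos_of_dvd_of_pos h4 (NeZero.pos q), h2⟩, h3⟩, h4⟩⟩
    · simp only [sfd, mem_filter, Nat.mem_divisors] at hd
      exact avg_of_dvd (fun h0 => hd.1.2.ne_zero h0) hd.1.1.1 a
  refine ⟨(full B E C q a).re, hre, ?_, ∑ d ∈ (sfd q).filter (fun d => ¬ d ≤ D), comp B E C q d a,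
    ?_, ?_⟩
  · refine (Complex.re_le_norm _).trans ((norm_sum_le _ _).trans (le_trans ?_ hlam))
    refine sum_le_sum fun d hd => le_mul_of_one_le_left (norm_nonneg _) ?_
    have : 1 ≤ d := Nat.pos_of_mem_divisors (mem_filter.1 hd).1
    exact Real.one_le_rpow (by exact_mod_cast this) (by norm_num)
  · refine (norm_sum_le _ _).trans ?_
    have hD0 : (0 : ℝ) < (D : ℝ) ^ (1 / 16 : ℝ) :=
      Real.rpow_pos_of_pos (by exact_mod_cast hD) _
    rw [Real.rpow_neg (Nat.cast_nonneg _), ← mul_le_mul_iff_of_pos_left hD0,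
      mul_inv_cancel₀ hD0.ne', mul_sum]
    refine le_trans ?_ hlam
    refine (sum_le_sum fun d hd => ?_).trans
      (sum_le_sum_of_subset_of_nonneg (filter_subset _ _) fun d _ _ =>
        mul_nonneg (Real.rpow_nonneg (Nat.cast_nonneg d) _) (norm_nonneg _))
    have hdD : D < d := not_le.1 (mem_filter.1 hd).2
    exact mul_le_mul_of_nonneg_right (Real.rpow_le_rpow (Nat.cast_nonneg _)
      (by exact_mod_cast hdD.le) (by norm_num)) (norm_nonneg _)
  · have hF : ((full B E C q a).re : ℂ) = full B E C q a :=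
      Complex.ext (Complex.ofReal_re _) (by rw [Complex.ofReal_im, him])
    rw [h1, hF, full, ← sum_filter_add_sum_filter_not (sfd q) (· ≤ D), add_sub_cancel_right]

/-- The test polynomial next to a fraction. -/
lemma test_approx {B E C : ℤ} {K : ℝ} (hK : 0 ≤ K)
    (hmaj : ∀ (M d q : ℕ), 1 ≤ M → 1 ≤ d → 1 ≤ q → ∀ (a : ℤ) (β θ : ℝ), θ = (a : ℝ) / q + β →
      |term B E C M d θ -
          ((avg B E C q d a).re * Jc B E C M β - (avg B E C q d a).im * Js B E C M β)| ≤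
        K * (d : ℝ) ^ 3 * q * (1 + |β| * (M : ℝ) ^ 2) * (M : ℝ) ^ 3)
    {M D q : ℕ} (hM : 1 ≤ M) (hq : 1 ≤ q) {a : ℤ} {β θ : ℝ} (hθ : θ = (a : ℝ) / q + β) :
    |test B E C M D θ - ((∑ d ∈ mods D, avg B E C q d a).re * Jc B E C M β -
        (∑ d ∈ mods D, avg B E C q d a).im * Js B E C M β)| ≤
      K * (D : ℝ) ^ 4 * q * (1 + |β| * (M : ℝ) ^ 2) * (M : ℝ) ^ 3 := by
  rw [Complex.re_sum, Complex.im_sum, sum_mul, sum_mul, ← sum_sub_distrib, test, ← sum_sub_distrib]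
  refine (abs_sum_le_sum_abs _ _).trans ((sum_le_card_nsmul _ _
    (K * (D : ℝ) ^ 3 * q * (1 + |β| * (M : ℝ) ^ 2) * (M : ℝ) ^ 3) fun d hd => ?_).trans ?_)
  · simp only [mods, mem_filter, mem_Icc] at hd
    refine (hmaj M d q hM hd.1.1 hq a β θ hθ).trans ?_
    have : (d : ℝ) ≤ D := by exact_mod_cast hd.1.2
    gcongr
  · rw [nsmul_eq_mul]
    refine (mul_le_mul_of_nonneg_right (card_mods_le D) (by positivity)).trans_eq ?_
    ring

/-- The exponent relating the length of the sums to the truncation parameter. -/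
lemma test_lower : ∃ Q : ℕ, 6 ≤ Q ∧ ∀ B E C : ℤ, Good B E C → ∃ K : ℝ, 0 ≤ K ∧
    ∀ D : ℕ, 1 ≤ D → ∀ θ : ℝ,
      -(K * (D : ℝ) ^ (-(1 / 16 : ℝ)) * ((D ^ Q : ℕ) : ℝ) ^ 4) ≤ test B E C (D ^ Q) D θ := by
  obtain ⟨E₀, hmin⟩ := term_minor
  refine ⟨8 * E₀ + 6, by omega, fun B E C hg => ?_⟩
  obtain ⟨K₀, hmin⟩ := hmin B E C hg
  obtain ⟨K₁, hK₁, hmaj⟩ := term_major hg
  obtain ⟨K₂, hK₂, hJ⟩ := Jc_Js_upper hg
  obtain ⟨K₃, hK₃, hJl⟩ := Jc_lower hg
  refine ⟨1 + K₁ * K₀ * (1 + K₀) + 2 * K₂ + K₃ * K₀, by positivity, fun D hD θ => ?_⟩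
  set M := D ^ (8 * E₀ + 6) with hMdef
  have hM : 1 ≤ M := Nat.one_le_pow _ _ hD
  have hDr : (1 : ℝ) ≤ D := by exact_mod_cast hD
  have hMr : (M : ℝ) = (D : ℝ) ^ (8 * E₀ + 6) := by rw [hMdef, Nat.cast_pow]
  set η := (D : ℝ) ^ (-(1 / 16 : ℝ)) with hη
  have hη1 : 1 / (D : ℝ) ≤ η := one_div_le_eta hD
  have hη0 : 0 ≤ η := by positivity
  set T := (M : ℝ) ^ 4 with hT
  have hT0 : 0 ≤ T := by positivity
  have hK₀' : (0 : ℝ) ≤ K₀ := Nat.cast_nonneg _
  by_cases hbig : ∃ d ∈ mods D, T / ((D ^ 3 : ℕ) : ℝ) ≤ |term B E C M d θ|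
  · obtain ⟨d, hd, hbig⟩ := hbig
    simp only [mods, mem_filter, mem_Icc] at hd
    obtain ⟨q, hq, hqle, a, ha⟩ :=
      hmin M d (D ^ 3) θ hM hd.1.1 (Nat.one_le_pow _ _ hD) hbig
    set ρ : ℚ := (a : ℚ) / q with hρ
    have hρr : (a : ℝ) / q = (ρ.num : ℝ) / ρ.den := by
      rw [← Rat.cast_def, hρ]; push_cast; rfl
    have hdvd : ρ.den ∣ q := by
      have := Rat.den_dvd a (q : ℤ)
      rw [Rat.divInt_eq_div, Int.cast_natCast] at this
      exact Int.natCast_dvd_natCast.1 this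
    have hden : ρ.den ≤ q := Nat.le_of_dvd (by omega) hdvd
    set β := θ - (a : ℝ) / q with hβ
    have hθ : θ = (ρ.num : ℝ) / ρ.den + β := by rw [hβ, ← hρr]; ring
    have hqD : (q : ℝ) ≤ K₀ * (D : ℝ) ^ (4 * E₀) := by
      have h1 : q ≤ K₀ * D ^ (4 * E₀) := by
        refine hqle.trans (Nat.mul_le_mul_left _ ?_)
        rw [pow_mul]
        exact Nat.pow_le_pow_left (by rw [pow_succ' D 3]; exact Nat.mul_le_mul_right _ hd.1.2) _
      exact_mod_cast h1
    have hβD : |β| * (M : ℝ) ^ 2 ≤ K₀ * (D : ℝ) ^ (4 * E₀) := by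
      rw [le_div_iff₀ (by positivity)] at ha
      refine ha.trans (mul_le_mul_of_nonneg_left ?_ hK₀')
      rw [pow_mul]
      refine pow_le_pow_left₀ (by positivity) ?_ _
      push_cast
      rw [pow_succ' (D : ℝ) 3]
      exact mul_le_mul_of_nonneg_right (by exact_mod_cast hd.1.2) (by positivity)
    have : NeZero ρ.den := ⟨ρ.den_nz⟩
    obtain ⟨F, hF0, hF1, R, hR, hS⟩ := trunc_series hg hD
      (a := ρ.num) (q := ρ.den) (Int.isCoprime_iff_nat_coprime.2 (by simpa using ρ.reduced))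
    have h := test_approx hK₁ hmaj (D := D) hM ρ.den_pos hθ
    rw [hS] at h
    simp only [Complex.sub_re, Complex.sub_im, Complex.ofReal_re, Complex.ofReal_im, zero_sub] at h
    have herr : K₁ * (D : ℝ) ^ 4 * ρ.den * (1 + |β| * (M : ℝ) ^ 2) * (M : ℝ) ^ 3 ≤
        K₁ * K₀ * (1 + K₀) * η * T := by
      have h1 : (ρ.den : ℝ) ≤ K₀ * (D : ℝ) ^ (4 * E₀) :=
        le_trans (by exact_mod_cast hden) hqD
      have h2 : 1 + |β| * (M : ℝ) ^ 2 ≤ (1 + K₀) * (D : ℝ) ^ (4 * E₀) := by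
        nlinarith [one_le_pow₀ (n := 4 * E₀) hDr]
      calc K₁ * (D : ℝ) ^ 4 * ρ.den * (1 + |β| * (M : ℝ) ^ 2) * (M : ℝ) ^ 3
          ≤ K₁ * (D : ℝ) ^ 4 * (K₀ * (D : ℝ) ^ (4 * E₀)) * ((1 + K₀) * (D : ℝ) ^ (4 * E₀)) *
              (M : ℝ) ^ 3 := by gcongr
        _ = K₁ * K₀ * (1 + K₀) * (((D : ℝ) ^ (8 * E₀ + 4)) * (M : ℝ) ^ 3) := by ring
        _ ≤ K₁ * K₀ * (1 + K₀) * (η * T) := by
            refine mul_le_mul_of_nonneg_left ?_ (by positivity)
            calc (D : ℝ) ^ (8 * E₀ + 4) * (M : ℝ) ^ 3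
                ≤ (D : ℝ) ^ (8 * E₀ + 5) * (M : ℝ) ^ 3 := by gcongr <;> linarith
              _ = (1 / D) * T := by
                  rw [hT, show (M : ℝ) ^ 4 = (D : ℝ) ^ (8 * E₀ + 6) * (M : ℝ) ^ 3 by
                    rw [← hMr]; ring, pow_succ (D : ℝ) (8 * E₀ + 5)]
                  field_simp
              _ ≤ η * T := mul_le_mul_of_nonneg_right hη1 hT0
        _ = _ := by ring
    have hJ1 := hJ M β hM
    have hlow := hJl M β hM
    have hβ1 : |β| ≤ K₀ * η := by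
      have h0 : (D : ℝ) ^ (4 * E₀) * D ≤ (M : ℝ) ^ 2 := by
        rw [hMr, ← pow_succ, ← pow_mul]; exact pow_le_pow_right₀ hDr (by omega)
      have h1 : |β| * ((D : ℝ) ^ (4 * E₀) * D) ≤ K₀ * (D : ℝ) ^ (4 * E₀) :=
        le_trans (mul_le_mul_of_nonneg_left h0 (abs_nonneg _)) hβD
      have h2 : |β| * D ≤ K₀ := by
        refine le_of_mul_le_mul_right ?_ (show (0 : ℝ) < (D : ℝ) ^ (4 * E₀) by positivity)
        linarith
      calc |β| ≤ K₀ * (1 / (D : ℝ)) := by rw [mul_one_div, le_div_iff₀ (by linarith)]; exact h2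
        _ ≤ K₀ * η := mul_le_mul_of_nonneg_left hη1 hK₀'
    have e1 : |R.re * Jc B E C M β| ≤ η * (K₂ * T) := by
      rw [abs_mul]
      exact mul_le_mul ((Complex.abs_re_le_norm R).trans hR) hJ1.1 (abs_nonneg _) hη0
    have e2 : |R.im * Js B E C M β| ≤ η * (K₂ * T) := by
      rw [abs_mul]
      exact mul_le_mul ((Complex.abs_im_le_norm R).trans hR) hJ1.2 (abs_nonneg _) hη0
    have e3 : -(K₃ * (K₀ * η) * T) ≤ F * Jc B E C M β := by
      have h1 : -(K₃ * (K₀ * η) * T) ≤ Jc B E C M β := by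
        refine le_trans (neg_le_neg ?_) hlow
        gcongr
      have hneg : 0 ≤ K₃ * (K₀ * η) * T := by positivity
      rcases le_or_gt 0 (Jc B E C M β) with hp | hp
      · have := mul_nonneg hF0 hp; linarith
      · nlinarith
    have hTη : 0 ≤ η * T := by positivity
    linarith [(abs_le.1 h).1, abs_le.1 e1, abs_le.1 e2]
  · push Not at hbig
    have h1 : |test B E C M D θ| ≤ (D : ℝ) * (T / ((D ^ 3 : ℕ) : ℝ)) := by
      refine (abs_sum_le_sum_abs _ _).trans ((sum_le_card_nsmul _ _ _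
        fun d hd => (hbig d hd).le).trans ?_)
      rw [nsmul_eq_mul]
      exact mul_le_mul_of_nonneg_right (card_mods_le D) (by positivity)
    have h2 : (D : ℝ) * (T / ((D ^ 3 : ℕ) : ℝ)) ≤ η * T := by
      calc (D : ℝ) * (T / ((D ^ 3 : ℕ) : ℝ)) = 1 / D * (T / D) := by push_cast; field_simp
        _ ≤ η * T := mul_le_mul hη1 (div_le_self hT0 hDr) (by positivity) hη0
    have h3 : 0 ≤ (K₁ * K₀ * (1 + K₀) + 2 * K₂ + K₃ * K₀) * (η * T) := by positivity
    linarith [(abs_le.1 h1).1]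

/-- The test polynomial is large at the origin. -/
lemma test_zero {B E C : ℤ} (hg : Good B E C) : ∃ D₀ : ℝ, 0 < D₀ ∧ ∀ Q D : ℕ, 6 ≤ Q → 1 ≤ D →
    D₀ ≤ D → ((D ^ Q : ℕ) : ℝ) ^ 4 / 4 ≤ test B E C (D ^ Q) D 0 := by
  obtain ⟨K₁, hK₁, hmaj⟩ := term_major hg
  refine ⟨4 * K₁ + 1, by positivity, fun Q D hQ hD hlarge => ?_⟩
  set M := D ^ Q with hMdef
  have hM : 1 ≤ M := Nat.one_le_pow _ _ hD
  have hDr : (1 : ℝ) ≤ D := by exact_mod_cast hD
  have h := test_approx hK₁ hmaj (D := D) (q := 1) (a := 0) (β := 0) (θ := 0) hM le_rfl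
    (by norm_num)
  have hS : ∑ d ∈ mods D, avg B E C 1 d 0 = 1 := by
    rw [sum_eq_single 1]
    · rw [avg_of_dvd one_ne_zero dvd_rfl, comp]
      simp [uF_one, phase, ee]
    · intro d hd hne
      exact avg_of_not_dvd hg (mem_filter.1 hd).2 (fun hd1 => hne (Nat.dvd_one.1 hd1)) 0
    · intro hne
      exact absurd (mem_filter.2 ⟨mem_Icc.2 ⟨le_rfl, hD⟩, squarefree_one⟩) hne
  rw [hS] at h
  simp only [Complex.one_re, Complex.one_im, one_mul, zero_mul, sub_zero, Nat.cast_one, mul_one,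
    abs_zero, zero_mul, add_zero] at h
  have hJ := Jc_zero hg M
  have hMD : (D : ℝ) ^ 5 ≤ M := by
    rw [hMdef, Nat.cast_pow]; exact pow_le_pow_right₀ hDr (by omega)
  have herr : K₁ * (D : ℝ) ^ 4 * (M : ℝ) ^ 3 ≤ (M : ℝ) ^ 4 / 4 := by
    have h1 : 4 * K₁ * (D : ℝ) ^ 4 ≤ (D : ℝ) ^ 5 := by
      rw [pow_succ' (D : ℝ) 4]
      exact mul_le_mul_of_nonneg_right (by linarith) (by positivity)
    nlinarith [mul_le_mul_of_nonneg_right (h1.trans hMD)
      (show (0 : ℝ) ≤ (M : ℝ) ^ 3 by positivity)]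
  linarith [(abs_le.1 h).1]

/-- The summation over a full period kills the test polynomial. -/
lemma sum_energy_test {B E C L : ℤ} {M D Λ : ℕ} [NeZero Λ] {A : Finset ℕ}
    (hA : A ⊆ Icc 1 (M ^ 2))
    (hΛ : ∀ n < M, 0 ≤ L * quad B E C (n : ℤ) ∧
      ((M : ℤ) ^ 2 + L * quad B E C (n : ℤ)) < Λ)
    (hfree : ∀ a ∈ A, ∀ b ∈ A, ∀ n : ℕ, (a : ℤ) ≠ b + L * quad B E C (n : ℤ)) :
    ∑ j ∈ range Λ, Odd.energy A Λ j * test B E C M D ((L : ℝ) * j / Λ) = 0 := by
  simp only [test, term, Odd.energy, mul_sum, sum_mul]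
  rw [sum_comm]
  refine sum_eq_zero fun d _ => ?_
  rw [sum_comm]
  refine sum_eq_zero fun n hn => ?_
  rw [sum_comm]
  refine sum_eq_zero fun a ha => ?_
  rw [sum_comm]
  refine sum_eq_zero fun b hb => ?_
  obtain ⟨hv0, hv1⟩ := hΛ n (mem_range.1 hn)
  set v := L * quad B E C (n : ℤ) with hv
  have ha' := mem_Icc.1 (hA ha)
  have hb' := mem_Icc.1 (hA hb)
  have hM2 : (a : ℤ) ≤ (M : ℤ) ^ 2 ∧ (b : ℤ) ≤ (M : ℤ) ^ 2 :=
    ⟨by exact_mod_cast ha'.2, by exact_mod_cast hb'.2⟩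
  have key : ∀ z : ℤ, -(Λ : ℤ) < z → z < Λ → z ≠ 0 → (z : ZMod Λ) ≠ 0 := by
    intro z h1 h2 h3 h4
    rw [ZMod.intCast_zmod_eq_zero_iff_dvd] at h4
    exact h3 (Int.eq_zero_of_abs_lt_dvd h4 (abs_lt.2 ⟨h1, h2⟩))
  have hz1 := key ((a : ℤ) - b + v) (by omega) (by omega) (by
    intro h; exact hfree b hb a ha n (by rw [← hv]; omega))
  have hz2 := key ((a : ℤ) - b - v) (by omega) (by omega) (by
    intro h; exact hfree a ha b hb n (by rw [← hv]; omega))
  have hvR : (v : ℝ) = L * quadR B E C n := by rw [hv]; simp [quad, quadR]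
  have e : ∀ j : ℕ, Real.cos (2 * Real.pi * (((a : ℤ) - b : ℤ) : ℝ) * j / Λ) *
      (uF B E d n * (wQ B E C M n *
        Real.cos (2 * Real.pi * ((L : ℝ) * j / Λ) * quadR B E C n))) =
      uF B E d n * wQ B E C M n / 2 *
        (Real.cos (2 * Real.pi * (((a : ℤ) - b + v : ℤ) : ℝ) * j / Λ) +
          Real.cos (2 * Real.pi * (((a : ℤ) - b - v : ℤ) : ℝ) * j / Λ)) := by
    intro j
    rw [show 2 * Real.pi * (((a : ℤ) - b + v : ℤ) : ℝ) * j / Λ =
        2 * Real.pi * (((a : ℤ) - b : ℤ) : ℝ) * j / Λ +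
          2 * Real.pi * ((L : ℝ) * j / Λ) * quadR B E C n by push_cast; rw [hvR]; ring,
      show 2 * Real.pi * (((a : ℤ) - b - v : ℤ) : ℝ) * j / Λ =
        2 * Real.pi * (((a : ℤ) - b : ℤ) : ℝ) * j / Λ -
          2 * Real.pi * ((L : ℝ) * j / Λ) * quadR B E C n by push_cast; rw [hvR]; ring,
      Real.cos_add, Real.cos_sub]
    ring
  rw [sum_congr rfl fun j _ => e j, ← mul_sum, sum_add_distrib, Odd.sum_cos_range,
    Odd.sum_cos_range, if_neg hz1, if_neg hz2, add_zero, mul_zero]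

/-- The positivity argument. -/
lemma card_bound {B E C L : ℤ} {M D Λ : ℕ} [NeZero Λ] {A : Finset ℕ} {lo hi : ℝ}
    (hA : A ⊆ Icc 1 (M ^ 2))
    (hΛ : ∀ n < M, 0 ≤ L * quad B E C (n : ℤ) ∧
      ((M : ℤ) ^ 2 + L * quad B E C (n : ℤ)) < Λ)
    (hΛM : M ^ 2 ≤ Λ)
    (hfree : ∀ a ∈ A, ∀ b ∈ A, ∀ n : ℕ, (a : ℤ) ≠ b + L * quad B E C (n : ℤ))
    (hlo : 0 ≤ lo) (hlow : ∀ θ, -lo ≤ test B E C M D θ) (hhi : hi ≤ test B E C M D 0) :
    (A.card : ℝ) * hi ≤ lo * Λ := by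
  rcases Nat.eq_zero_or_pos A.card with hA0 | hA0
  · rw [hA0, Nat.cast_zero, zero_mul]; positivity
  have hen : ∑ j ∈ range Λ, Odd.energy A Λ j = Λ * A.card := by
    simp only [Odd.energy]
    rw [sum_comm]
    calc ∑ a ∈ A, ∑ j ∈ range Λ, ∑ b ∈ A,
          Real.cos (2 * Real.pi * (((a : ℤ) - b : ℤ) : ℝ) * j / Λ)
        = ∑ a ∈ A, (Λ : ℝ) := by
          refine sum_congr rfl fun a ha => ?_
          rw [sum_comm, sum_eq_single_of_mem a ha]
          · rw [Odd.sum_cos_range, if_pos (by simp)]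
          · intro b hb hne
            rw [Odd.sum_cos_range, if_neg]
            rw [ZMod.intCast_zmod_eq_zero_iff_dvd]
            intro hd
            have ha' := mem_Icc.1 (hA ha)
            have hb' := mem_Icc.1 (hA hb)
            have := Int.eq_zero_of_abs_lt_dvd hd (abs_lt.2 ⟨by omega, by omega⟩)
            omega
      _ = _ := by simp [mul_comm]
  have hsum : (A.card : ℝ) ^ 2 * hi ≤ lo * (Λ * A.card) := by
    calc (A.card : ℝ) ^ 2 * hi
        ≤ Odd.energy A Λ 0 * (test B E C M D ((L : ℝ) * ((0 : ℕ) : ℝ) / Λ) + lo) := by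
          have he : Odd.energy A Λ 0 = (A.card : ℝ) ^ 2 := by simp [Odd.energy, sq]
          rw [he, Nat.cast_zero, mul_zero, zero_div]
          exact mul_le_mul_of_nonneg_left (by linarith) (sq_nonneg _)
      _ ≤ ∑ j ∈ range Λ, Odd.energy A Λ j * (test B E C M D ((L : ℝ) * j / Λ) + lo) :=
          single_le_sum
            (f := fun j => Odd.energy A Λ j * (test B E C M D ((L : ℝ) * j / Λ) + lo))
            (fun j _ => mul_nonneg (Odd.energy_nonneg _ _ _)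
              (by have := hlow ((L : ℝ) * j / Λ); linarith))
            (mem_range.2 (NeZero.pos Λ))
      _ = _ := by
          simp only [mul_add, sum_add_distrib]
          rw [sum_energy_test hA hΛ hfree, ← sum_mul, hen]
          ring
  refine le_of_mul_le_mul_right ?_ (show (0 : ℝ) < A.card by exact_mod_cast hA0)
  linarith [hsum]

/-- The key inequality at the scale `M = D ^ Q`. -/
lemma key : ∃ Q : ℕ, 1 ≤ Q ∧ ∀ L B E C : ℤ, 0 < L → Good B E C → ∃ K : ℝ, ∀ D : ℕ, 1 ≤ D →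
    ∀ A : Finset ℕ, A ⊆ Icc 1 ((D ^ Q) ^ 2) →
      (∀ a ∈ A, ∀ b ∈ A, ∀ n : ℕ, (a : ℤ) ≠ b + L * quad B E C (n : ℤ)) →
      (A.card : ℝ) ≤ K * (D : ℝ) ^ (-(1 / 16 : ℝ)) * ((D ^ Q) ^ 2 : ℕ) := by
  obtain ⟨Q, hQ, hlow⟩ := test_lower
  refine ⟨Q, by omega, fun L B E C hL hg => ?_⟩
  obtain ⟨K, hK, hlow⟩ := hlow B E C hg
  obtain ⟨D₀, hD₀, hzero⟩ := test_zero hg
  set F : ℕ := (L * (B + E + C)).toNat + 2 with hF
  refine ⟨max (4 * K * F) D₀, fun D hD A hA hfree => ?_⟩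
  set M := D ^ Q with hMdef
  have hM : 1 ≤ M := Nat.one_le_pow _ _ hD
  set η := (D : ℝ) ^ (-(1 / 16 : ℝ)) with hη
  have hη0 : 0 ≤ η := by positivity
  rcases lt_or_ge ((D : ℝ)) D₀ with hsmall | hlarge
  · have hcard : (A.card : ℝ) ≤ ((M ^ 2 : ℕ) : ℝ) := by
      have := (card_le_card hA).trans_eq (Nat.card_Icc 1 (M ^ 2))
      rw [Nat.add_sub_cancel] at this
      exact_mod_cast this
    refine hcard.trans ?_
    have h1 : 1 ≤ max (4 * K * F) D₀ * η := by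
      have h2 : 1 ≤ D₀ * (1 / (D : ℝ)) := by
        rw [mul_one_div, le_div_iff₀ (by exact_mod_cast hD)]; linarith
      exact h2.trans (mul_le_mul (le_max_right _ _) (one_div_le_eta hD) (by positivity)
        (le_trans hD₀.le (le_max_right _ _)))
    exact le_mul_of_one_le_left (by positivity) h1
  set Λ := F * M ^ 2 with hΛdef
  have : NeZero Λ := ⟨by positivity⟩
  have hΛ : ∀ n < M, 0 ≤ L * quad B E C (n : ℤ) ∧
      ((M : ℤ) ^ 2 + L * quad B E C (n : ℤ)) < Λ := by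
    intro n hn
    have hn' : (n : ℤ) ≤ M := by exact_mod_cast hn.le
    have hM' : (1 : ℤ) ≤ M := by exact_mod_cast hM
    have := hg.posB; have := hg.posE; have := hg.posC
    have h0 : 0 ≤ quad B E C (n : ℤ) := by simp only [quad, Int.cast_id]; positivity
    have h1 : quad B E C (n : ℤ) ≤ (B + E + C) * (M : ℤ) ^ 2 := by
      simp only [quad, Int.cast_id]
      have e1 : B * (n : ℤ) ^ 2 ≤ B * (M : ℤ) ^ 2 := by gcongr
      have e2 : E * (n : ℤ) ≤ E * (M : ℤ) ^ 2 := by gcongr; nlinarith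
      have e3 : C ≤ C * (M : ℤ) ^ 2 := le_mul_of_one_le_right (by omega) (one_le_pow₀ hM')
      linarith
    refine ⟨mul_nonneg hL.le h0, ?_⟩
    have hFz : (F : ℤ) = L * (B + E + C) + 2 := by
      rw [hF, Nat.cast_add, Int.toNat_of_nonneg (by positivity)]; rfl
    have hcast : ((M ^ 2 : ℕ) : ℤ) = (M : ℤ) ^ 2 := Nat.cast_pow M 2
    rw [hΛdef, Nat.cast_mul, hFz, hcast]
    nlinarith [mul_le_mul_of_nonneg_left h1 hL.le, pow_pos (show (0 : ℤ) < M by omega) 2]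
  have hT : (0 : ℝ) < (M : ℝ) ^ 4 / 4 := by positivity
  have h := card_bound (D := D) hA hΛ (Nat.le_mul_of_pos_left _ (by omega)) hfree
    (show 0 ≤ K * η * (M : ℝ) ^ 4 by positivity) (hlow D hD) (hzero Q D hQ hD hlarge)
  have hfin : (A.card : ℝ) ≤ 4 * K * F * η * ((M ^ 2 : ℕ) : ℝ) := by
    refine le_of_mul_le_mul_right (h.trans_eq ?_) hT
    rw [hΛdef, hMdef]
    push_cast
    field_simp
  refine hfin.trans ?_
  gcongr
  exact le_max_left _ _

/-- A power saving, with one exponent for all intersective quadratics of nonzero discriminant. -/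
theorem power_saving : ∃ c : ℝ, 0 < c ∧ ∀ a b e : ℤ, 0 < a → b ^ 2 - 4 * a * e ≠ 0 →
    (∀ q : ℕ, 1 ≤ q → ∃ t : ℤ, (q : ℤ) ∣ a * t ^ 2 + b * t + e) →
    ∃ K : ℝ, ∀ N : ℕ, 1 ≤ N → ∀ A : Finset ℕ, A ⊆ Icc 1 N →
      (∀ x ∈ A, ∀ y ∈ A, ∀ n : ℕ, 0 < n → a * (n : ℤ) ^ 2 + b * n + e ≠ 0 →
        (x : ℤ) - y ≠ a * (n : ℤ) ^ 2 + b * n + e) →
      (A.card : ℝ) ≤ K * (N : ℝ) ^ (1 - c) := by
  obtain ⟨Q, hQ, hkey⟩ := key
  set m := Q * 2 with hm
  have hm1 : 1 ≤ m := by omega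
  set c := (1 / 16 : ℝ) / m with hc
  refine ⟨c, by positivity, fun a b e ha hD hroot => ?_⟩
  obtain ⟨L, B, E, C, hL, hg, hval⟩ := exists_normal_form ha hD hroot
  obtain ⟨K, hkey⟩ := hkey L B E C hL hg
  refine ⟨|K| * 2 ^ m, fun N hN A hA hfree => ?_⟩
  have hfree' : ∀ x ∈ A, ∀ y ∈ A, ∀ n : ℕ, (x : ℤ) ≠ y + L * quad B E C (n : ℤ) := by
    intro x hx y hy n heq
    obtain ⟨k, hk, hkv⟩ := hval n
    have hpos : 0 < L * quad B E C (n : ℤ) := by
      have := hg.posB; have := hg.posE; have := hg.posC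
      simp only [quad, Int.cast_id]
      positivity
    exact hfree x hx y hy k hk (by rw [hkv]; exact hpos.ne') (by rw [hkv]; omega)
  have hex : ∃ D : ℕ, N ≤ D ^ m := ⟨N, Nat.le_self_pow (by omega) N⟩
  set D := Nat.find hex with hDdef
  have hDN : N ≤ D ^ m := Nat.find_spec hex
  have hD1 : 1 ≤ D := by
    rcases Nat.eq_zero_or_pos D with h | h
    · rw [h, zero_pow (by omega)] at hDN; omega
    · exact h
  have hup : D ^ m ≤ 2 ^ m * N := by
    rcases Nat.lt_or_ge D 2 with h | h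
    · have : D = 1 := by omega
      rw [this, one_pow]
      exact Nat.mul_pos (Nat.two_pow_pos m) hN
    · have h1 : ¬ N ≤ (D - 1) ^ m := Nat.find_min hex (by omega)
      calc D ^ m ≤ (2 * (D - 1)) ^ m := Nat.pow_le_pow_left (by omega) m
        _ = 2 ^ m * (D - 1) ^ m := mul_pow _ _ _
        _ ≤ _ := Nat.mul_le_mul_left _ (by omega)
  have hpow : (D ^ Q) ^ 2 = D ^ m := by rw [hm, pow_mul]
  have h := hkey D hD1 A (hA.trans (Icc_subset_Icc le_rfl (hpow ▸ hDN))) hfree'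
  rw [hpow] at h
  have hNr : (0 : ℝ) < N := by exact_mod_cast hN
  have hDη : (D : ℝ) ^ (-(1 / 16 : ℝ)) ≤ (N : ℝ) ^ (-c) := by
    have e : (D : ℝ) ^ (-(1 / 16 : ℝ)) = (((D ^ m : ℕ) : ℝ)) ^ (-c) := by
      rw [Nat.cast_pow, ← Real.rpow_natCast_mul (Nat.cast_nonneg _), hc]
      congr 1
      field_simp
    rw [e]
    exact Real.rpow_le_rpow_of_nonpos hNr (by exact_mod_cast hDN)
      (neg_nonpos.2 (by positivity))
  calc (A.card : ℝ) ≤ K * (D : ℝ) ^ (-(1 / 16 : ℝ)) * ((D ^ m : ℕ) : ℝ) := h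
    _ ≤ |K| * (N : ℝ) ^ (-c) * (2 ^ m * (N : ℝ)) := by
        refine mul_le_mul (mul_le_mul (le_abs_self K) hDη (by positivity) (abs_nonneg K))
          (by exact_mod_cast hup) (by positivity) (by positivity)
    _ = |K| * 2 ^ m * (N : ℝ) ^ (1 - c) := by
        rw [sub_eq_add_neg, Real.rpow_add hNr, Real.rpow_one]; ring

end Vale.Agent.P042.Quad
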